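import Claimed.Agent.R152.CT.Tower

/-!
# Row 152, module CT, file 5: the action of `Y = X ∗ C₂` on `X/Λ ⊔ {q}`.

`X` acts on the left cosets `vΛ` by left multiplication and fixes `q = none`; `j` swaps `o = Λ` and `q` and fixes all other points.
`Ahat Λ` is the stabiliser of `o`.
-/

namespace Claimed.Agent.R152.CT

open Monoid.Coprod

variable {X : Type} [Group X] (Λ : Subgroup X)

/-- the points -/
abbrev Pt := Option (X ⧸ Λ)

/-- the base point `o` -/
def oPt : Pt Λ := some ((1 : X) : X ⧸ Λ)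

/-- the action of `X` -/
def actX : X →* Equiv.Perm (Pt Λ) where
  toFun x := Equiv.optionCongr (MulAction.toPerm x)
  map_one' := by
    ext a : 1
    cases a <;> simp
  map_mul' x y := by
    ext a : 1
    cases a <;> simp [mul_smul]

open Classical in
/-- the action of `j` -/
noncomputable def actJ : C2 →* Equiv.Perm (Pt Λ) :=
  invHom (Equiv.swap none (oPt Λ)) (Equiv.swap_mul_self _ _)

/-- the action of `Y` -/
noncomputable def actY : YG X →* Equiv.Perm (Pt Λ) := Monoid.Coprod.lift (actX Λ) (actJ Λ)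

/-- the stabiliser of `o` -/
noncomputable def Ahat : Subgroup (YG X) :=
  (MulAction.stabilizer (Equiv.Perm (Pt Λ)) (oPt Λ)).comap (actY Λ)

theorem mem_Ahat_iff (y : YG X) : y ∈ Ahat Λ ↔ actY Λ y (oPt Λ) = oPt Λ := by
  simp [Ahat, MulAction.mem_stabilizer_iff]

theorem actY_inl_some (x v : X) :
    actY Λ (inl x) (some (v : X ⧸ Λ)) = some ((x * v : X) : X ⧸ Λ) := by
  simp only [actY, Monoid.Coprod.lift_apply_inl, actX]
  rfl

theorem actY_inl_none (x : X) : actY Λ (inl x) none = none := by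
  simp only [actY, Monoid.Coprod.lift_apply_inl, actX]
  rfl

theorem actY_j_o : actY Λ (jY X) (oPt Λ) = none := by
  simp only [actY, jY, Monoid.Coprod.lift_apply_inr, actJ, invHom_neg_one]
  classical
  exact Equiv.swap_apply_right _ _

theorem actY_j_none : actY Λ (jY X) none = oPt Λ := by
  simp only [actY, jY, Monoid.Coprod.lift_apply_inr, actJ, invHom_neg_one]
  classical
  exact Equiv.swap_apply_left _ _

theorem actY_j_some {v : X} (hv : v ∉ Λ) :
    actY Λ (jY X) (some (v : X ⧸ Λ)) = some (v : X ⧸ Λ) := by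
  simp only [actY, jY, Monoid.Coprod.lift_apply_inr, actJ, invHom_neg_one]
  classical
  apply Equiv.swap_apply_of_ne_of_ne
  · simp
  · intro h
    apply hv
    have h2 : ((v : X) : X ⧸ Λ) = ((1 : X) : X ⧸ Λ) := Option.some.inj h
    rw [QuotientGroup.eq] at h2
    simpa using h2

theorem inl_mem_Ahat_iff (x : X) : inl x ∈ Ahat Λ ↔ x ∈ Λ := by
  rw [mem_Ahat_iff, oPt, actY_inl_some, mul_one]
  constructor
  · intro h
    have h2 : ((x : X) : X ⧸ Λ) = ((1 : X) : X ⧸ Λ) := Option.some.inj h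
    rw [QuotientGroup.eq] at h2
    simpa using h2
  · intro h
    congr 1
    rw [QuotientGroup.eq]
    simpa using h

theorem jY_not_mem_Ahat : jY X ∉ Ahat Λ := by
  rw [mem_Ahat_iff, actY_j_o]
  simp [oPt]

/-- `j θ(x) j⁻¹` fixes `o` -/
theorem conj_j_mem_Ahat (x : X) : jY X * inl x * (jY X)⁻¹ ∈ Ahat Λ := by
  rw [mem_Ahat_iff, jY_inv, map_mul, map_mul, Equiv.Perm.mul_apply, Equiv.Perm.mul_apply,
    actY_j_o, actY_inl_none, actY_j_none]

/-- `θ(v) j θ(v)⁻¹` fixes `o` if `v ∉ Λ` -/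
theorem conj_inl_mem_Ahat {v : X} (hv : v ∉ Λ) : inl v * jY X * (inl v)⁻¹ ∈ Ahat Λ := by
  have hv' : v⁻¹ ∉ Λ := fun h => hv (by simpa using Λ.inv_mem h)
  rw [mem_Ahat_iff, ← map_inv, map_mul, map_mul, Equiv.Perm.mul_apply, Equiv.Perm.mul_apply,
    oPt, actY_inl_some, mul_one, actY_j_some Λ hv', actY_inl_some, mul_inv_cancel]

end Claimed.Agent.R152.CT
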