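import Claimed.Agent.R152.CT.Tower

/-!
# Row 152, module CT, file 5: alternating products in `Y = X ∗ C₂` (normal form theorem, one direction).
-/

namespace Claimed.Agent.R152.CT

open Monoid.Coprod

variable {X : Type} [Group X]

/-- value of an item: `none = j`, `some u = θ(u)` -/
def yItemX : Option X → YG X
  | none => jY X
  | some u => inl u

/-- value of a list of items -/
def yprodX (zs : List (Option X)) : YG X := (zs.map yItemX).prod

theorem yprodX_nil : yprodX ([] : List (Option X)) = 1 := rfl

theorem yprodX_cons (z : Option X) (zs : List (Option X)) :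
    yprodX (z :: zs) = yItemX z * yprodX zs := by
  simp [yprodX]

/-- alternating lists whose `θ`-syllables are `≠ 1` -/
def AltOK (zs : List (Option X)) : Prop :=
  zs.IsChain (fun a b => a.isSome ≠ b.isSome) ∧ ∀ u, some u ∈ zs → u ≠ 1

/-- the family `true ↦ X`, `false ↦ C₂` -/
def altFam (X : Type) : Bool → Type
  | true => X
  | false => C2

instance altFamGroup (X : Type) [Group X] : ∀ b, Group (altFam X b)
  | true => inferInstanceAs (Group X)
  | false => inferInstanceAs (Group C2)

/-- the comparison map `X ∗ C₂ → CoprodI` -/
def altHom (X : Type) [Group X] : YG X →* Monoid.CoprodI (altFam X) :=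
  Monoid.Coprod.lift (Monoid.CoprodI.of (M := altFam X) (i := true))
    (Monoid.CoprodI.of (M := altFam X) (i := false))

/-- an item as a letter of `CoprodI` -/
def altSig : Option X → (Σ b, altFam X b)
  | none => ⟨false, (-1 : C2)⟩
  | some u => ⟨true, u⟩

omit [Group X] in
theorem altSig_fst (z : Option X) : (altSig z).1 = z.isSome := by
  cases z <;> rfl

theorem altHom_item (z : Option X) :
    altHom X (yItemX z) = Monoid.CoprodI.of (M := altFam X) (altSig z).2 := by
  cases z with
  | none => exact Monoid.Coprod.lift_apply_inr _ _ _
  | some u => exact Monoid.Coprod.lift_apply_inl _ _ _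

theorem altHom_yprodX (zs : List (Option X)) :
    altHom X (yprodX zs) =
      ((zs.map altSig).map fun l => Monoid.CoprodI.of (M := altFam X) l.2).prod := by
  induction zs with
  | nil => simp [yprodX]
  | cons z zs ih =>
    rw [yprodX_cons, map_mul, ih, altHom_item]
    simp

/-- **Normal form theorem of the free product** `X ∗ C₂` (one direction).  Proof: map `X ∗ C₂` to
`Monoid.CoprodI (fun b : Bool => cond b X C2)` (or any family indexed by a type with two elements) by `Monoid.Coprod.lift`; the image of the value
is `Word.prod` of an explicit non-empty `Monoid.CoprodI.Word`; `Monoid.CoprodI.Word.equiv` is injective. -/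
theorem yprodX_ne_one {zs : List (Option X)} (h : AltOK zs) (h2 : zs ≠ []) : yprodX zs ≠ 1 := by
  classical
  intro h1
  have hne : ∀ l ∈ zs.map altSig, Sigma.snd l ≠ 1 := by
    intro l hl
    obtain ⟨z, hz, rfl⟩ := List.mem_map.1 hl
    cases z with
    | none =>
      intro h0
      have h3 : (-1 : C2) = 1 := h0
      exact absurd h3 (by decide)
    | some u =>
      intro h0
      exact h.2 u hz h0
  have hch : (zs.map altSig).IsChain fun l l' => Sigma.fst l ≠ Sigma.fst l' := by
    rw [List.isChain_map]
    refine h.1.imp ?_
    intro a b hab
    rw [altSig_fst, altSig_fst]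
    exact hab
  let w : Monoid.CoprodI.Word (altFam X) := ⟨zs.map altSig, hne, hch⟩
  have hw : w.prod = 1 := by
    have h4 := altHom_yprodX zs
    rw [h1, map_one] at h4
    exact h4.symm
  have hw2 : w = Monoid.CoprodI.Word.empty := by
    apply (Monoid.CoprodI.Word.equiv (M := altFam X)).symm.injective
    exact hw
  have h5 : zs.map altSig = [] := congrArg Monoid.CoprodI.Word.toList hw2
  exact h2 (List.map_eq_nil_iff.1 h5)

end Claimed.Agent.R152.CT
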