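import Claimed.Agent.R152.CT.Defs

/-!
# Row 152, module CT, file 4: the GRAMMAR of names and the full hardware interface.

A grammar has sorts, base languages, concatenation rules `i ← a · b` and substitution rules `i ← θ(a)` (shape asked for by module RE, msg 19437:
the derivable pairs (sort, word) are r.e. as soon as the base languages are).  A unit rule `i ← a` is written `i ← a · eps`.

Meaning of the sorts (values in `X ≅ HNN(H × Y; ρ)`, `Y = θ(X) ∗ ⟨j⟩`, `A⁻ = P × 1`, `A⁺ = graph π`, `S = K × A`, `A = Stab_Y(o)`):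
`all` everything, `eps` the empty word, `wh` `H`, `e1` `H∖1`, `ep` `H∖P`, `ek` `H∖K`, `ekp` `H∖KP`, `sp` generators of `P` and inverses, `wp` `P`,
`jj` `j`, `rp` `ρ`, `rn` `ρ⁻¹`, `tall` `θ(X)`, `yall` `Y`, `tn1` `θ(X∖1)`, `yj`/`yt` alternating products starting with `j` / with `θ(≠1)`, `y1` `Y∖1`,
`tnl` `θ(X∖L)`, `yrep` `Y∖A` (one element in every coset `A y`), `gr` `A⁺` (written `ρ p ρ⁻¹`), `ball` the base, `bn1` base`∖1`, `bnA` base`∖A⁻`,
`bnB` base`∖A⁺`, `bnS` base`∖S`, `bnSA` base`∖S A⁻`, `bnSB` base`∖S A⁺`, `rpos`/`rneg` reduced tails starting with `ρ` / `ρ⁻¹`,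
`tp`/`tn` what may follow a `ρ` / `ρ⁻¹`, `n1` `X∖1`, `nl` `X∖L` (one element in every coset `L x`).

Pinches (Mathlib convention `t a t⁻¹ = φ a`):  `ρ g ρ⁻¹` is a pinch iff `g ∈ A⁻`;  `ρ⁻¹ g ρ` is a pinch iff `g ∈ A⁺`.
-/

namespace Claimed.Agent.R152.CT

universe u

/-- derivations of a grammar -/
inductive Der {α σ : Type} (base : σ → List α → Prop) (catT : List (σ × σ × σ))
    (morT : List (σ × σ)) (th : α → List α) : σ → List α → Prop
  | base {i : σ} {w : List α} : base i w → Der base catT morT th i w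
  | cat {i a b : σ} {u v : List α} : (i, a, b) ∈ catT → Der base catT morT th a u →
      Der base catT morT th b v → Der base catT morT th i (u ++ v)
  | mor {i a : σ} {u : List α} : (i, a) ∈ morT → Der base catT morT th a u →
      Der base catT morT th i (u.flatMap th)

/-- the sorts -/
inductive Srt
  | all | eps | wh | e1 | ep | ek | ekp | sp | wp | jj | rp | rn | tall | yall | tn1 | yj | yt | y1
  | tnl | yrep | gr0 | gr | ball | bn1 | bnA | bnB | bnS | bnSA | bnSB | tp | tn | rpos | rneg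
  | n1 | nl
  deriving DecidableEq

/-- the concatenation rules `i ← a · b` -/
def catT : List (Srt × Srt × Srt) := [
  (.wp, .eps, .eps), (.wp, .sp, .wp),
  (.yall, .eps, .eps), (.yall, .jj, .yall), (.yall, .tall, .yall),
  (.yj, .jj, .eps), (.yj, .jj, .yt), (.yt, .tn1, .eps), (.yt, .tn1, .yj),
  (.y1, .yj, .eps), (.y1, .yt, .eps),
  (.yrep, .jj, .eps), (.yrep, .tnl, .eps),
  (.gr0, .rp, .wp), (.gr, .gr0, .rn),
  (.ball, .wh, .yall),
  (.bn1, .e1, .yall), (.bn1, .wh, .y1),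
  (.bnA, .ep, .yall), (.bnA, .wh, .y1),
  (.bnB, .ep, .yall), (.bnB, .y1, .gr),
  (.bnS, .ek, .yall), (.bnS, .yrep, .wh),
  (.bnSA, .ekp, .yall), (.bnSA, .yrep, .wh),
  (.bnSB, .ekp, .yall), (.bnSB, .yrep, .gr),
  (.tp, .ball, .eps), (.tp, .ball, .rpos), (.tp, .bnA, .rneg),
  (.tn, .ball, .eps), (.tn, .ball, .rneg), (.tn, .bnB, .rpos),
  (.rpos, .rp, .tp), (.rneg, .rn, .tn),
  (.n1, .bn1, .eps), (.n1, .ball, .rpos), (.n1, .ball, .rneg),
  (.nl, .bnS, .eps), (.nl, .bnSB, .rpos), (.nl, .bnSA, .rneg)]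

/-- the substitution rules `i ← θ(a)` -/
def morT : List (Srt × Srt) := [(.tall, .all), (.tn1, .n1), (.tnl, .nl)]

variable {H : Type u} [Group H] {n : ℕ} (B : HwBase H n)

namespace HwBase

/-- the base languages -/
def base : Srt → WX n → Prop
  | .all, _ => True
  | .eps, w => w = []
  | .wh, w => ∃ v : WH n, w = incW v
  | .e1, w => ∃ v ∈ B.Ev1, w = incW v
  | .ep, w => ∃ v ∈ B.EvP, w = incW v
  | .ek, w => ∃ v ∈ B.EvK, w = incW v
  | .ekp, w => ∃ v ∈ B.EvKP, w = incW v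
  | .sp, w => ∃ s ∈ B.SP, w = incW s ∨ w = incW (FreeGroup.invRev s)
  | .jj, w => w = B.jW
  | .rp, w => w = rhoW n
  | .rn, w => w = rhoW' n
  | _, _ => False

/-- `B.D i w`: the word `w` is derivable in the sort `i` -/
abbrev D : Srt → WX n → Prop := Der B.base catT morT B.thL

end HwBase

/-- **THE HARDWARE INTERFACE.**  (`EvK`, `EvKP` only have to meet every coset `K h`.) -/
structure Hardware (H : Type u) [Group H] (n : ℕ) extends HwBase H n where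
  Ev1_sound : ∀ w ∈ Ev1, φ (FreeGroup.mk w) ≠ 1
  Ev1_compl : ∀ h : H, h ≠ 1 → ∃ w ∈ Ev1, φ (FreeGroup.mk w) = h
  EvP_sound : ∀ w ∈ EvP, φ (FreeGroup.mk w) ∉ P
  EvP_compl : ∀ h : H, h ∉ P → ∃ w ∈ EvP, φ (FreeGroup.mk w) = h
  EvK_sound : ∀ w ∈ EvK, φ (FreeGroup.mk w) ∉ K
  EvK_compl : ∀ h : H, h ∉ K → ∃ w ∈ EvK, ∃ k ∈ K, φ (FreeGroup.mk w) = k * h
  EvKP_sound : ∀ w ∈ EvKP, ∀ k ∈ K, ∀ p ∈ P, φ (FreeGroup.mk w) ≠ k * p
  EvKP_compl : ∀ h : H, (∀ k ∈ K, ∀ p ∈ P, h ≠ k * p) →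
    ∃ w ∈ EvKP, ∃ k ∈ K, φ (FreeGroup.mk w) = k * h
  /-- the machine accepts exactly the names of sort `nl` -/
  accept : Subgroup.map π₀ (K.subgroupOf P) =
    Subgroup.closure {e | ∃ w, toHwBase.D .nl w ∧
      e = incJ n (FreeGroup.mk w) * Jl n * (incJ n (FreeGroup.mk w))⁻¹}
  /-- (H4) labels of elements of `P` are small -/
  h4 : ∀ (w : FH n) (hw : φ w ∈ P), ∃ m, 16 * m ≤ w.norm ∧ SmallF m (π₀ ⟨φ w, hw⟩)
  /-- (H5) elements of `K P` have a small `P`-part -/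
  h5 : ∀ (w : FH n) (k : H) (p : P), k ∈ K → φ w = k * p →
    ∃ p' : P, φ w * (p' : H)⁻¹ ∈ K ∧ ∃ m, 16 * m ≤ w.norm ∧ SmallF m (π₀ p')
  kp_ne_top : ∃ h : H, ∀ k ∈ K, ∀ p ∈ P, h ≠ k * p

end Claimed.Agent.R152.CT
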