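import Claimed.Agent.R152.CT.TowerApi
import Claimed.Agent.R152.CT.Gram

/-!
# Row 152, module CT, file 12: `T.Has i x` = "`x` is the value of a word of sort `i`"; the sorts that need no induction hypothesis are complete.
Rule membership is proved by `by decide`.
-/

namespace Claimed.Agent.R152.CT

open Monoid.Coprod HNNExtension

universe u

variable {H : Type u} [Group H] {n : ℕ} {X : Type} [Group X]

namespace Tower

section
variable {B : HwBase H n} (T : Tower B X)

/-- `x` is the value of a word of sort `i` -/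
def Has (i : Srt) (x : X) : Prop := ∃ w, B.D i w ∧ T.val w = x

variable {T}

theorem Has.cat {i a b : Srt} {x y : X} (hr : (i, a, b) ∈ catT) (hx : T.Has a x)
    (hy : T.Has b y) : T.Has i (x * y) := by
  obtain ⟨u, hu, rfl⟩ := hx
  obtain ⟨v, hv, rfl⟩ := hy
  exact ⟨u ++ v, Der.cat hr hu hv, T.val_append u v⟩

theorem Has.mor {i a : Srt} {x : X} (hr : (i, a) ∈ morT) (hx : T.Has a x) : T.Has i (T.θ x) := by
  obtain ⟨u, hu, rfl⟩ := hx
  exact ⟨_, Der.mor hr hu, T.val_flatMap u⟩

variable (T)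

theorem has_eps : T.Has .eps 1 := ⟨[], Der.base rfl, T.val_nil⟩

variable {T}

theorem Has.unit {i a : Srt} {x : X} (hr : (i, a, Srt.eps) ∈ catT) (hx : T.Has a x) :
    T.Has i x := by
  have := Has.cat hr hx T.has_eps
  rwa [mul_one] at this

variable (T)

theorem has_all (x : X) : T.Has .all x := by
  obtain ⟨w, hw⟩ := T.val_surj x
  exact ⟨w, Der.base trivial, hw⟩

theorem has_wh (h : H) : T.Has .wh (T.bas (h, 1)) := by
  obtain ⟨f, rfl⟩ := B.φ_surj h
  refine ⟨incW f.toWord, Der.base ⟨_, rfl⟩, ?_⟩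
  rw [T.val_incW, FreeGroup.mk_toWord]

theorem has_jj : T.Has .jj T.j := ⟨B.jW, Der.base rfl, T.val_jW⟩

theorem has_rp : T.Has .rp T.rho := ⟨rhoW n, Der.base rfl, T.val_rhoW⟩

theorem has_rn : T.Has .rn T.rho⁻¹ := ⟨rhoW' n, Der.base rfl, T.val_rhoW'⟩

theorem has_tall (x : X) : T.Has .tall (T.θ x) := Has.mor (by decide) (T.has_all x)

/-- `P = closure (φ '' SP)`; use `Subgroup.closure_induction_left` (or `..._right`) with the rules `wp ← eps·eps`, `wp ← sp·wp`. -/
theorem has_wp (p : B.P) : T.Has .wp (T.bas ((p : H), 1)) := by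
  have hsplit : ∀ x y : H, T.bas (x * y, 1) = T.bas (x, 1) * T.bas (y, 1) := by
    intro x y
    rw [← map_mul]
    simp
  have key : ∀ h : H, h ∈ Subgroup.closure {h | ∃ s ∈ B.SP, h = B.φ (FreeGroup.mk s)} →
      T.Has .wp (T.bas (h, 1)) := by
    intro h hh
    induction hh using Subgroup.closure_induction_left with
    | one =>
      have h1 : T.Has .wp (1 * 1) := Has.cat (by decide) T.has_eps T.has_eps
      have e : T.bas ((1 : H), (1 : YG X)) = 1 * 1 := by
        rw [mul_one]
        exact map_one T.bas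
      rw [e]
      exact h1
    | mul_left x hx y _ ih =>
      obtain ⟨s, hs, rfl⟩ := hx
      rw [hsplit]
      have h1 : T.Has .sp (T.bas (B.φ (FreeGroup.mk s), 1)) :=
        ⟨incW s, Der.base ⟨s, hs, Or.inl rfl⟩, T.val_incW s⟩
      exact Has.cat (by decide) h1 ih
    | inv_mul_cancel x hx y _ ih =>
      obtain ⟨s, hs, rfl⟩ := hx
      rw [hsplit, ← map_inv, FreeGroup.inv_mk]
      have h1 : T.Has .sp (T.bas (B.φ (FreeGroup.mk (FreeGroup.invRev s)), 1)) :=
        ⟨incW (FreeGroup.invRev s), Der.base ⟨s, hs, Or.inr rfl⟩, T.val_incW _⟩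
      exact Has.cat (by decide) h1 ih
  refine key p ?_
  rw [← B.P_eq]
  exact p.2

/-- `Monoid.Coprod.induction_on` does not fit directly (products); show that `{y | ∀ y', Has yall (bas (1,y')) → Has yall (bas (1, y * y'))}` contains
`inl x` and `inr u` (`u = 1` or `u = -1`, `inr (-1) = jY X`) and is closed under products; e.g. via `Monoid.Coprod.closure_range_inl_union_inr`
or `Monoid.Coprod.induction_on'`. -/
theorem has_yall (y : YG X) : T.Has .yall (T.bas (1, y)) := by
  have hsplit : ∀ x y : YG X, T.bas ((1 : H), x * y) = T.bas (1, x) * T.bas (1, y) := by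
    intro x y
    rw [← map_mul]
    simp
  have key : ∀ y : YG X, ∀ y' : YG X, T.Has .yall (T.bas (1, y')) →
      T.Has .yall (T.bas (1, y * y')) := by
    intro y
    induction y using Monoid.Coprod.induction_on with
    | inl x =>
      intro y' h
      rw [hsplit, T.bas_inl]
      exact Has.cat (by decide) (T.has_tall x) h
    | inr u =>
      intro y' h
      rcases Int.units_eq_one_or u with rfl | rfl
      · rw [map_one, one_mul]
        exact h
      · rw [hsplit]
        have e : T.bas ((1 : H), (inr (-1 : C2) : YG X)) = T.j := T.bas_jY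
        rw [e]
        exact Has.cat (by decide) T.has_jj h
    | mul x y hx hy =>
      intro y' h
      rw [mul_assoc]
      exact hx _ (hy _ h)
  have h1 : T.Has .yall (T.bas ((1 : H), (1 : YG X))) := by
    have h2 : T.Has .yall (1 * 1) := Has.cat (by decide) T.has_eps T.has_eps
    have e : T.bas ((1 : H), (1 : YG X)) = 1 * 1 := by
      rw [mul_one]
      exact map_one T.bas
    rw [e]
    exact h2
  have h3 := key y 1 h1
  rwa [mul_one] at h3

theorem has_gr (p : B.P) : T.Has .gr (T.bas ((p : H), piY B T.μ p)) := by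
  rw [← T.rho_conj p]
  have h0 : T.Has .gr0 (T.rho * T.bas ((p : H), 1)) := Has.cat (by decide) T.has_rp (T.has_wp p)
  exact Has.cat (by decide) h0 T.has_rn

theorem has_ball (g : H × YG X) : T.Has .ball (T.bas g) := by
  rcases g with ⟨h, y⟩
  rw [T.bas_split]
  exact Has.cat (by decide) (T.has_wh h) (T.has_yall y)

end

variable (hw : Hardware H n) (T : Tower hw.toHwBase X)

theorem has_e1 {h : H} (h1 : h ≠ 1) : T.Has .e1 (T.bas (h, 1)) := by
  obtain ⟨w, hw1, rfl⟩ := hw.Ev1_compl h h1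
  exact ⟨incW w, Der.base ⟨w, hw1, rfl⟩, T.val_incW w⟩

theorem has_ep {h : H} (h1 : h ∉ hw.P) : T.Has .ep (T.bas (h, 1)) := by
  obtain ⟨w, hw1, rfl⟩ := hw.EvP_compl h h1
  exact ⟨incW w, Der.base ⟨w, hw1, rfl⟩, T.val_incW w⟩

theorem has_ek {h : H} (h1 : h ∉ hw.K) : ∃ k ∈ hw.K, T.Has .ek (T.bas (k * h, 1)) := by
  obtain ⟨w, hw1, k, hk, e⟩ := hw.EvK_compl h h1
  exact ⟨k, hk, incW w, Der.base ⟨w, hw1, rfl⟩, by rw [T.val_incW w, e]⟩

theorem has_ekp {h : H} (h1 : ∀ k ∈ hw.K, ∀ p ∈ hw.P, h ≠ k * p) :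
    ∃ k ∈ hw.K, T.Has .ekp (T.bas (k * h, 1)) := by
  obtain ⟨w, hw1, k, hk, e⟩ := hw.EvKP_compl h h1
  exact ⟨k, hk, incW w, Der.base ⟨w, hw1, rfl⟩, by rw [T.val_incW w, e]⟩

end Tower

end Claimed.Agent.R152.CT
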