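import Claimed.Agent.R152.CT.TowerApi

/-!
# Row 152, module CT, file 8: the subgroup `L`.

`L` = least subgroup containing `K × 1`, `ρ`, `j θ(X) j⁻¹` and closed under `θ`; it is the union of the chain
`L₀ = 1`, `L_{k+1} = ⟨S0, θ(L_k)⟩`.
-/

namespace Claimed.Agent.R152.CT

open Monoid.Coprod

universe u

variable {H : Type u} [Group H] {n : ℕ} {B : HwBase H n} {X : Type} [Group X]

namespace Tower

variable (T : Tower B X)

/-- the generators of `L` other than `θ(L)` -/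
def S0 : Set X :=
  {x | ∃ k ∈ B.K, x = T.bas (k, 1)} ∪ {T.rho} ∪ {x | ∃ x', x = T.j * T.θ x' * T.j⁻¹}

/-- `Λ ↦ ⟨S0, θ(Λ)⟩` -/
noncomputable def Lnext (Λ : Subgroup X) : Subgroup X := Subgroup.closure (T.S0 ∪ T.θ '' Λ)

/-- the approximations of `L` -/
noncomputable def Lseq (k : ℕ) : Subgroup X := (T.Lnext)^[k] ⊥

theorem Lseq_zero : T.Lseq 0 = ⊥ := rfl

theorem Lseq_succ (k : ℕ) : T.Lseq (k + 1) = T.Lnext (T.Lseq k) := by
  simp only [Lseq, Function.iterate_succ_apply']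

/-- the subgroup `L` -/
noncomputable def L : Subgroup X := ⨆ k, T.Lseq k

theorem Lnext_mono : Monotone T.Lnext := by
  intro Λ Λ' h
  apply Subgroup.closure_mono
  apply Set.union_subset_union_right
  exact Set.image_mono h

theorem Lseq_mono : Monotone T.Lseq := by
  apply monotone_nat_of_le_succ
  intro k
  induction k with
  | zero => exact bot_le
  | succ k ih =>
    rw [T.Lseq_succ k, T.Lseq_succ (k + 1)]
    exact T.Lnext_mono ih

theorem mem_L_iff (x : X) : x ∈ T.L ↔ ∃ k, x ∈ T.Lseq k :=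
  Subgroup.mem_iSup_of_directed T.Lseq_mono.directed_le

theorem S0_subset_L : T.S0 ⊆ T.L := by
  intro x hx
  refine (T.mem_L_iff x).2 ⟨1, ?_⟩
  rw [T.Lseq_succ]
  exact Subgroup.subset_closure (Or.inl hx)

theorem θ_mem_L {x : X} (hx : x ∈ T.L) : T.θ x ∈ T.L := by
  obtain ⟨k, hk⟩ := (T.mem_L_iff x).1 hx
  refine (T.mem_L_iff _).2 ⟨k + 1, ?_⟩
  rw [T.Lseq_succ]
  exact Subgroup.subset_closure (Or.inr ⟨x, hk, rfl⟩)

theorem basK_mem_L {k : H} (hk : k ∈ B.K) : T.bas (k, 1) ∈ T.L :=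
  T.S0_subset_L (Or.inl (Or.inl ⟨k, hk, rfl⟩))

theorem rho_mem_L : T.rho ∈ T.L := T.S0_subset_L (Or.inl (Or.inr rfl))

theorem conj_j_mem_L (x : X) : T.j * T.θ x * T.j⁻¹ ∈ T.L := T.S0_subset_L (Or.inr ⟨x, rfl⟩)

/-- `L ≤ ⟨S0, θ(L)⟩` -/
theorem L_le_Lnext : T.L ≤ T.Lnext T.L := by
  intro x hx
  obtain ⟨k, hk⟩ := (T.mem_L_iff x).1 hx
  have h1 : T.Lseq k ≤ T.Lseq (k + 1) := T.Lseq_mono (Nat.le_succ k)
  have h2 : T.Lseq (k + 1) ≤ T.Lnext T.L := by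
    rw [T.Lseq_succ]
    exact T.Lnext_mono (le_iSup T.Lseq k)
  exact h2 (h1 hk)

/-- `L_Y = {y ∈ Y | (1,y) ∈ L}` -/
noncomputable def LY : Subgroup (YG X) := T.L.comap (T.bas.comp (MonoidHom.inr H (YG X)))

theorem mem_LY_iff (y : YG X) : y ∈ T.LY ↔ T.bas (1, y) ∈ T.L := Iff.rfl

theorem inl_mem_LY {x : X} (hx : x ∈ T.L) : inl x ∈ T.LY := by
  rw [mem_LY_iff, bas_inl]; exact T.θ_mem_L hx

theorem conj_j_mem_LY (x : X) : jY X * inl x * (jY X)⁻¹ ∈ T.LY := by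
  rw [mem_LY_iff]
  have : ((1 : H), jY X * inl x * (jY X)⁻¹) = (1, jY X) * (1, inl x) * (1, jY X)⁻¹ := by
    ext <;> simp
  rw [this, map_mul, map_mul, map_inv, bas_jY, bas_inl]
  exact T.conj_j_mem_L x

end Tower

end Claimed.Agent.R152.CT
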