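import Claimed.Agent.R152.CT.Small
import Claimed.Agent.R152.CT.LDef
import Claimed.Agent.R152.CT.Has

/-!
# Row 152, module CT, file 14: coset representatives of small elements of `Y` modulo `L_Y` (lemma CR).

`L_Y = {y | (1,y) ∈ L}`.  Known elements of `L_Y`: `θ(L)`, `j θ(X) j⁻¹`, and `θ(ν) j θ(ν)⁻¹` for names `ν` of sort `nl` (hardware).
`IHL N` is the induction hypothesis of completeness: every `u ∉ L` of length `< N` lies in `L ν` for a name `ν`.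
-/

namespace Claimed.Agent.R152.CT

open Monoid.Coprod

universe u

variable {H : Type u} [Group H] {n : ℕ} {X : Type} [Group X]

namespace Tower

section
variable {B : HwBase H n} (T : Tower B X)

/-- the coset `L x` contains (the value of) a name -/
def Goal (x : X) : Prop := ∃ x', T.Has .nl x' ∧ x * x'⁻¹ ∈ T.L

/-- induction hypothesis of completeness -/
def IHL (N : ℕ) : Prop := ∀ (k : ℕ) (x : X), k < N → T.Len k x → x ∉ T.L → T.Goal x

/-- states of the tracking: `1`, `j`, or `θ(u)` with `u` short -/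
def St (m : ℕ) (s : YG X) : Prop := s = 1 ∨ s = jY X ∨ ∃ u, T.Len m u ∧ s = inl u

theorem has_yrep_j : T.Has .yrep (T.bas (1, jY X)) := by
  rw [T.bas_jY]; exact Has.unit (by decide) T.has_jj

theorem has_yrep_inl {x : X} (h : T.Has .nl x) : T.Has .yrep (T.bas (1, inl x)) := by
  rw [T.bas_inl]
  have h1 : T.Has .tnl (T.θ x) := Has.mor (by decide) h
  exact Has.unit (by decide) h1

end

theorem CR_labY_incJ (mk : FX n →* X) (w : FX n) : labY mk (incJ n w) = inl (mk w) := by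
  have : (labY mk).comp (incJ n) = (inl : X →* YG X).comp mk := by
    ext z
    simp [labY, incJ]
  exact DFunLike.congr_fun this w

theorem CR_labY_Jl (mk : FX n →* X) : labY mk (Jl n) = jY X := by
  simp [labY, Jl]

variable (hw : Hardware H n) (T : Tower hw.toHwBase X)

/-- `θ(ν) j θ(ν)⁻¹ ∈ L` for every name.  By `hw.accept` (`⊇`) there is `p ∈ K ∩ P` with `π₀ p = ν J ν⁻¹`; `(p,1) ∈ L`, `ρ ∈ L`, so
`(p, π p) = ρ (p,1) ρ⁻¹ ∈ L` and `(1, π p) ∈ L`;  `π p = labY (π₀ p) = θ(ν) j θ(ν)⁻¹`  (`labY_incJ`, `labY_Jl` are in `SoundL.lean`; copy or move them). -/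
theorem name_conj {x : X} (h : T.Has .nl x) : inl x * jY X * (inl x)⁻¹ ∈ T.LY := by
  obtain ⟨w, hw1, rfl⟩ := h
  have hmem : incJ n (FreeGroup.mk w) * Jl n * (incJ n (FreeGroup.mk w))⁻¹ ∈
      Subgroup.map hw.π₀ (hw.K.subgroupOf hw.P) := by
    rw [hw.accept]
    exact Subgroup.subset_closure ⟨w, hw1, rfl⟩
  obtain ⟨p, hpK, hp⟩ := hmem
  have hpK' : (p : H) ∈ hw.K := hpK
  have h1 : T.bas ((p : H), 1) ∈ T.L := T.basK_mem_L hpK'
  have h2 : T.bas ((p : H), piY hw.toHwBase T.μ p) ∈ T.L := by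
    rw [← T.rho_conj p]
    exact T.L.mul_mem (T.L.mul_mem T.rho_mem_L h1) (T.L.inv_mem T.rho_mem_L)
  rw [T.bas_split] at h2
  have h3 : T.bas (1, piY hw.toHwBase T.μ p) ∈ T.L := (T.L.mul_mem_cancel_left h1).1 h2
  have h4 : piY hw.toHwBase T.μ p = inl (T.val w) * jY X * (inl (T.val w))⁻¹ := by
    show labY T.μ (hw.π₀ p) = _
    rw [hp, map_mul, map_mul, map_inv, CR_labY_incJ, CR_labY_Jl]
    rfl
  rw [T.mem_LY_iff, ← h4]
  exact h3

/-- `v ∉ L` short: `v = λ ν`, so `θ(v) j θ(v)⁻¹ = θ(λ) (θ(ν) j θ(ν)⁻¹) θ(λ)⁻¹ ∈ L_Y`. -/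
theorem short_conj {N k : ℕ} (ih : T.IHL N) (hk : k < N) {v : X} (hv : T.Len k v)
    (hvL : v ∉ T.L) : inl v * jY X * (inl v)⁻¹ ∈ T.LY := by
  obtain ⟨x', hx', hl⟩ := ih k v hk hv hvL
  have h1 := name_conj hw T hx'
  have h2 : (inl (v * x'⁻¹) : YG X) ∈ T.LY := T.inl_mem_LY hl
  have h3 := T.LY.mul_mem (T.LY.mul_mem h2 h1) (T.LY.inv_mem h2)
  have e : (inl (v * x'⁻¹) : YG X) * (inl x' * jY X * (inl x')⁻¹) * (inl (v * x'⁻¹))⁻¹
      = inl v * jY X * (inl v)⁻¹ := by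
    simp only [map_mul, map_inv]
    group
  rwa [e] at h3

/-- One step: `L_Y s · cj l = L_Y s'`.
* `s = 1`: `l ∉ L`: `cj l ∈ L_Y` (`short_conj` for `l⁻¹`), `s' = 1`; `l ∈ L`: `cj l = θ(l)⁻¹ (j θ(l) j⁻¹) j`, `s' = j`.
* `s = j`: `j θ(l)⁻¹ j θ(l) = (j θ(l⁻¹) j⁻¹) θ(l)`, `s' = θ(l)`.
* `s = θ(u)`, `v = u l⁻¹`: `v ∈ L`: `θ(v) j θ(l) = θ(v) (j θ(l) j⁻¹) j`, `s' = j`; `v ∉ L`: `θ(v) j θ(l) = (θ(v) j θ(v)⁻¹) θ(u)`, `s' = s`
  (`short_conj`, `|v| ≤ 2m < N`). -/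
theorem St_step {N m : ℕ} (ih : T.IHL N) (hm : 2 * m < N) {s : YG X} (hs : T.St m s) {l : X}
    (hl : T.Len m l) : ∃ s', T.St m s' ∧ s * cj l * s'⁻¹ ∈ T.LY := by
  rcases hs with rfl | rfl | ⟨u, hu, rfl⟩
  · by_cases hlL : l ∈ T.L
    · refine ⟨jY X, Or.inr (Or.inl rfl), ?_⟩
      have h1 : (inl l : YG X) ∈ T.LY := T.inl_mem_LY hlL
      have h2 := T.LY.mul_mem (T.LY.inv_mem h1) (T.conj_j_mem_LY l)
      have e : (inl l : YG X)⁻¹ * (jY X * inl l * (jY X)⁻¹) = 1 * cj l * (jY X)⁻¹ := by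
        unfold cj; group
      rwa [e] at h2
    · refine ⟨1, Or.inl rfl, ?_⟩
      have hl' : l⁻¹ ∉ T.L := fun h => hlL (by simpa using T.L.inv_mem h)
      have h1 := short_conj hw T ih (by omega : m < N) (hl.inv T) hl'
      have e : (inl l⁻¹ : YG X) * jY X * (inl l⁻¹)⁻¹ = 1 * cj l * 1⁻¹ := by
        unfold cj; simp only [map_inv]; group
      rwa [e] at h1
  · refine ⟨inl l, Or.inr (Or.inr ⟨l, hl, rfl⟩), ?_⟩
    have h1 := T.conj_j_mem_LY l⁻¹
    have e : jY X * inl l⁻¹ * (jY X)⁻¹ = jY X * cj l * (inl l)⁻¹ := by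
      unfold cj
      rw [jY_inv]
      simp only [map_inv]
      group
    rwa [e] at h1
  · by_cases hv : u * l⁻¹ ∈ T.L
    · refine ⟨jY X, Or.inr (Or.inl rfl), ?_⟩
      have h1 : (inl (u * l⁻¹) : YG X) ∈ T.LY := T.inl_mem_LY hv
      have h2 := T.LY.mul_mem h1 (T.conj_j_mem_LY l)
      have e : (inl (u * l⁻¹) : YG X) * (jY X * inl l * (jY X)⁻¹) = inl u * cj l * (jY X)⁻¹ := by
        unfold cj; simp only [map_mul, map_inv]; group
      rwa [e] at h2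
    · refine ⟨inl u, Or.inr (Or.inr ⟨u, hu, rfl⟩), ?_⟩
      have h1 := short_conj hw T ih (by omega : m + m < N) (hu.mul T (hl.inv T)) hv
      have e : (inl (u * l⁻¹) : YG X) * jY X * (inl (u * l⁻¹))⁻¹ = inl u * cj l * (inl u)⁻¹ := by
        unfold cj; simp only [map_mul, map_inv]; group
      rwa [e] at h1

/-- induction on `ls` with `St_step` -/
theorem St_list {N m : ℕ} (ih : T.IHL N) (hm : 2 * m < N) (ls : List X)
    (hl : ∀ l ∈ ls, T.Len m l) : ∀ s, T.St m s →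
      ∃ s', T.St m s' ∧ s * (ls.map cj).prod * s'⁻¹ ∈ T.LY := by
  induction ls with
  | nil =>
    intro s hs
    exact ⟨s, hs, by simp [T.LY.one_mem]⟩
  | cons l ls IH =>
    intro s hs
    obtain ⟨s1, hs1, h1⟩ := St_step hw T ih hm hs (hl l (List.mem_cons_self ..))
    obtain ⟨s', hs', h2⟩ := IH (fun l' hl' => hl l' (List.mem_cons_of_mem _ hl')) s1 hs1
    refine ⟨s', hs', ?_⟩
    have h3 := T.LY.mul_mem h1 h2
    have e : s * cj l * s1⁻¹ * (s1 * (ls.map cj).prod * s'⁻¹)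
        = s * ((l :: ls).map cj).prod * s'⁻¹ := by
      rw [List.map_cons, List.prod_cons]; group
    rwa [e] at h3

/-- **Lemma CR.**  A small `y` lies in `L_Y` or in `L_Y r` with `r` of sort `yrep` (`r = j` or `r = θ(W)`, `W` a name).
(`St_list` from `s = 1`; then multiply the final state by `θ(w)`: `1·θ(w)`, `j θ(w) = (j θ(w) j⁻¹) j`, `θ(u w)`; a state `θ(u)`, `|u| ≤ 2m < N`,
is in `L_Y` if `u ∈ L` and in `L_Y θ(W)` by `ih` otherwise; `has_yrep_j`, `has_yrep_inl`.) -/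
theorem CR {N m : ℕ} (ih : T.IHL N) (hm : 2 * m < N) {y : YG X} (hy : T.Small m y) :
    y ∈ T.LY ∨ ∃ r, T.Has .yrep (T.bas (1, r)) ∧ y * r⁻¹ ∈ T.LY := by
  obtain ⟨ls, w, rfl, hls, hw'⟩ := hy
  obtain ⟨s', hs', ha⟩ := St_list hw T ih hm ls hls 1 (Or.inl rfl)
  -- the final step for a state `θ(z)`
  have key : ∀ (k : ℕ) (z : X), k < N → T.Len k z → ∀ a ∈ T.LY,
      a * inl z ∈ T.LY ∨ ∃ r, T.Has .yrep (T.bas (1, r)) ∧ a * inl z * r⁻¹ ∈ T.LY := by
    intro k z hk hz a ha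
    by_cases hzL : z ∈ T.L
    · exact Or.inl (T.LY.mul_mem ha (T.inl_mem_LY hzL))
    · obtain ⟨x', hx', hl⟩ := ih k z hk hz hzL
      refine Or.inr ⟨inl x', T.has_yrep_inl hx', ?_⟩
      have h1 := T.LY.mul_mem ha (T.inl_mem_LY hl)
      have e : a * (inl (z * x'⁻¹) : YG X) = a * inl z * (inl x')⁻¹ := by
        simp only [map_mul, map_inv]; group
      rwa [e] at h1
  rcases hs' with rfl | rfl | ⟨u, hu, rfl⟩
  · have h := key m w (by omega) hw' _ ha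
    simpa using h
  · refine Or.inr ⟨jY X, T.has_yrep_j, ?_⟩
    have h1 := T.LY.mul_mem ha (T.conj_j_mem_LY w)
    have e : 1 * (ls.map cj).prod * (jY X)⁻¹ * (jY X * inl w * (jY X)⁻¹)
        = (ls.map cj).prod * inl w * (jY X)⁻¹ := by group
    rwa [e] at h1
  · have h := key (m + m) (u * w) (by omega) (hu.mul T hw') _ ha
    have e : 1 * (ls.map cj).prod * (inl u : YG X)⁻¹ * inl (u * w) = (ls.map cj).prod * inl w := by
      simp only [map_mul]; group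
    rwa [e] at h

end Tower

end Claimed.Agent.R152.CT
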