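import Claimed.Agent.R152.CT.Ctrl
import Claimed.Agent.R152.CT.Has

/-!
# Row 152, module CT, file 16: COMPLETENESS of the sort `n1`: every `x ≠ 1` of `X` is the value of a word of sort `n1`.

Strong induction on the length `N` of `x`.  Take a controlled reduced form.  All Y-parts are `Small m` with `16 m ≤ N`, so the syllables of their
normal forms are shorter than `N` and have names.  Sites:
* `ρ g ρ⁻¹`, `g = (h,y) ∉ P × 1`:  `y ≠ 1`: rule `bnA ← wh · y1`; `y = 1`: `h ∉ P`, rule `bnA ← ep · yall`.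
* `ρ⁻¹ g ρ`, `g = (h,y) ∉ graph π`:  `h ∉ P`: rule `bnB ← ep · yall`; `h ∈ P`: `g = (1, y π(h)⁻¹)(h, π h)`, rule `bnB ← y1 · gr`.
-/

namespace Claimed.Agent.R152.CT

open Monoid.Coprod HNNExtension

universe u

variable {H : Type u} [Group H] {n : ℕ} {X : Type} [Group X]

namespace Tower

section
variable {B : HwBase H n} (T : Tower B X)

/-- induction hypothesis -/
def IH1 (N : ℕ) : Prop := ∀ (k : ℕ) (x : X), k < N → T.Len k x → x ≠ 1 → T.Has .n1 x

/-- names of alternating lists.  Induction on `zs`; rules `yj ← jj·eps | jj·yt`, `yt ← tn1·eps | tn1·yj`, `tn1 ← θ(n1)`;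
`bas (1, yprodX (z :: zs)) = bas (1, yItemX z) * bas (1, yprodX zs)`, `bas_jY`, `bas_inl`. -/
theorem has_alt {N M : ℕ} (ih : T.IH1 N) (hM : M < N) :
    ∀ zs : List (Option X), AltOK zs → (∀ u, some u ∈ zs → T.Len M u) →
      (∀ zs', zs = none :: zs' → T.Has .yj (T.bas (1, yprodX zs))) ∧
      (∀ u zs', zs = some u :: zs' → T.Has .yt (T.bas (1, yprodX zs))) := by
  intro zs
  induction zs with
  | nil =>
    intro _ _
    exact ⟨fun _ h => (by cases h), fun _ _ h => (by cases h)⟩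
  | cons z zs ihz =>
    intro hA hL
    have hA' : AltOK zs := ⟨hA.1.tail, fun u hu => hA.2 u (List.mem_cons_of_mem _ hu)⟩
    have hL' : ∀ u, some u ∈ zs → T.Len M u := fun u hu => hL u (List.mem_cons_of_mem _ hu)
    obtain ⟨i1, i2⟩ := ihz hA' hL'
    have hsplit : T.bas (1, yprodX (z :: zs)) = T.bas (1, yItemX z) * T.bas (1, yprodX zs) := by
      rw [yprodX_cons, ← map_mul]
      simp
    have hnil : T.bas (1, yprodX ([] : List (Option X))) = 1 := by
      rw [yprodX_nil]
      exact map_one _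
    constructor
    · intro zs' hz
      obtain ⟨hz1, -⟩ := List.cons.inj hz
      subst hz1
      rw [hsplit]
      have hj : T.bas (1, yItemX (none : Option X)) = T.j := T.bas_jY
      rw [hj]
      rcases zs with _ | ⟨z2, zs2⟩
      · rw [hnil]
        exact Has.cat (by decide) T.has_jj T.has_eps
      · rcases z2 with _ | u2
        · exact absurd rfl (List.isChain_cons_cons.1 hA.1).1
        · exact Has.cat (by decide) T.has_jj (i2 u2 zs2 rfl)
    · intro u zs' hz
      obtain ⟨hz1, -⟩ := List.cons.inj hz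
      subst hz1
      rw [hsplit]
      have hu : T.bas (1, yItemX (some u)) = T.θ u := T.bas_inl u
      rw [hu]
      have ht : T.Has .tn1 (T.θ u) :=
        Has.mor (by decide) (ih M u hM (hL u (List.mem_cons_self)) (hA.2 u (List.mem_cons_self)))
      rcases zs with _ | ⟨z2, zs2⟩
      · rw [hnil]
        exact Has.cat (by decide) ht T.has_eps
      · rcases z2 with _ | u2
        · exact Has.cat (by decide) ht (i1 zs2 rfl)
        · exact absurd rfl (List.isChain_cons_cons.1 hA.1).1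

/-- names of small elements `≠ 1` of `Y` (`small_nf`, `has_alt`, rules `y1 ← yj·eps | yt·eps`). -/
theorem has_y1 {N m : ℕ} (ih : T.IH1 N) (hm : 2 * m < N) {y : YG X} (hy : T.Small m y)
    (h1 : y ≠ 1) : T.Has .y1 (T.bas (1, y)) := by
  obtain ⟨zs, hA, hL, rfl⟩ := T.small_nf hy
  obtain ⟨i1, i2⟩ := T.has_alt ih hm zs hA hL
  rcases zs with _ | ⟨z, zs⟩
  · exact absurd yprodX_nil h1
  · rcases z with _ | u
    · exact Has.unit (by decide) (i1 zs rfl)
    · exact Has.unit (by decide) (i2 u zs rfl)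

end

variable (hw : Hardware H n) (T : Tower hw.toHwBase X)

/-- `g = (h,y) ≠ 1`: `y ≠ 1`: `bn1 ← wh·y1`; `y = 1`: `bn1 ← e1·yall`. -/
theorem has_bn1 {N : ℕ} (ih : T.IH1 N) {g : H × YG X} (hy : ∃ m, 2 * m < N ∧ T.Small m g.2)
    (hg : g ≠ 1) : T.Has .bn1 (T.bas g) := by
  obtain ⟨m, hm, hs⟩ := hy
  rcases g with ⟨h, y⟩
  rw [T.bas_split]
  by_cases hy1 : y = 1
  · subst hy1
    have hh : h ≠ 1 := fun e => hg (by rw [e]; rfl)
    exact Has.cat (by decide) (T.has_e1 hw hh) (T.has_yall 1)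
  · exact Has.cat (by decide) (T.has_wh h) (T.has_y1 ih hm hs hy1)

/-- a syllable at a site `ρ g ρ⁻¹` -/
theorem has_bnA {N : ℕ} (ih : T.IH1 N) {g : H × YG X} (hy : ∃ m, 2 * m < N ∧ T.Small m g.2)
    (hg : g ∉ AM hw.toHwBase (X := X)) : T.Has .bnA (T.bas g) := by
  obtain ⟨m, hm, hs⟩ := hy
  rcases g with ⟨h, y⟩
  rw [T.bas_split]
  by_cases hy1 : y = 1
  · subst hy1
    have hh : h ∉ hw.P := fun e => hg ((mem_AM_iff _ _).2 ⟨e, rfl⟩)
    exact Has.cat (by decide) (T.has_ep hw hh) (T.has_yall 1)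
  · exact Has.cat (by decide) (T.has_wh h) (T.has_y1 ih hm hs hy1)

/-- a syllable at a site `ρ⁻¹ g ρ`.  (`h ∈ P`: `π(h)` is `Small m'`, `16 m' ≤ a` (`small_piY`), `y π(h)⁻¹` is `Small (m + 2 m')`,
`2 (m + 2 m') ≤ 6 a / 16 < N`;  it is `≠ 1` because `g ∉ graph π`;  `has_y1`, `has_gr`.) -/
theorem has_bnB {N a : ℕ} (hN : 0 < N) (ih : T.IH1 N) {g : H × YG X} (hc : T.SylC a g)
    (ha : a ≤ N) (hg : g ∉ BM hw.toHwBase T.μ) : T.Has .bnB (T.bas g) := by
  rcases g with ⟨h, y⟩
  obtain ⟨hl, m, hm, hs⟩ := hc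
  by_cases hp : h ∈ hw.P
  · obtain ⟨m', hm', hs'⟩ := T.small_piY hw (p := ⟨h, hp⟩) hl
    have hs2 : T.Small (m + 2 * m') (y * (piY hw.toHwBase T.μ ⟨h, hp⟩)⁻¹) :=
      Small.mul T hs (Small.inv T hs')
    have hne : y * (piY hw.toHwBase T.μ ⟨h, hp⟩)⁻¹ ≠ 1 := by
      intro e
      exact hg ((mem_BM_iff _ _ _).2 ⟨hp, mul_inv_eq_one.1 e⟩)
    have hsplit : T.bas (h, y) = T.bas (1, y * (piY hw.toHwBase T.μ ⟨h, hp⟩)⁻¹) *
        T.bas (h, piY hw.toHwBase T.μ ⟨h, hp⟩) := by
      rw [← map_mul]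
      simp
    rw [hsplit]
    exact Has.cat (by decide) (T.has_y1 ih (by omega) hs2 hne) (T.has_gr ⟨h, hp⟩)
  · rw [T.bas_split]
    exact Has.cat (by decide) (T.has_ep hw hp) (T.has_yall y)

/-- **Names of tails.**  Induction on `l = (u,g) :: l'`;  `evalL l = ρ^u * (bas g * evalL l')`.
* `l' = []`: `tp ← ball·eps` (`tn ← ball·eps`);
* next exponent `= u`: `tp ← ball·rpos` (`tn ← ball·rneg`);
* `u = 1`, next exponent `-1`: `g ∉ P × 1` by `Red`: `tp ← bnA·rneg`;   `u = -1`, next exponent `1`: `g ∉ graph π`: `tn ← bnB·rpos`;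
then `rpos ← rp·tp`, `rneg ← rn·tn`.  `16 m ≤ a ≤ N` and `0 < N` give `2 m < N`. -/
theorem has_tail {N : ℕ} (hN : 0 < N) (ih : T.IH1 N) :
    ∀ (l : List (ℤˣ × (H × YG X))) (N' : ℕ), T.Red l → T.LW l N' → N' ≤ N →
      (∀ g l', l = (1, g) :: l' → T.Has .rpos (T.evalL l)) ∧
      (∀ g l', l = (-1, g) :: l' → T.Has .rneg (T.evalL l)) := by
  intro l
  induction l with
  | nil =>
    intro _ _ _ _
    exact ⟨fun _ _ h => (by cases h), fun _ _ h => (by cases h)⟩
  | cons q l' ihl =>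
    intro N' hR hW hN'
    rcases q with ⟨u, g⟩
    cases hW with
    | @cons _ _ _ a N'' hc hW' =>
    have hR' : T.Red l' := hR.tail
    obtain ⟨i1, i2⟩ := ihl N'' hR' hW' (by omega)
    have hsm : ∃ m, 2 * m < N ∧ T.Small m g.2 := by
      obtain ⟨-, m, hm, hs⟩ := hc
      exact ⟨m, by omega, hs⟩
    constructor
    · intro g0 l0 he
      obtain ⟨he1, -⟩ := List.cons.inj he
      obtain ⟨hu, -⟩ := Prod.mk.inj he1
      subst hu
      have hev : T.evalL ((1, g) :: l') = T.rho * (T.bas g * T.evalL l') := by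
        rw [T.evalL_cons]
        simp [mul_assoc]
      rw [hev]
      refine Has.cat (b := Srt.tp) (by decide) T.has_rp ?_
      rcases l' with _ | ⟨⟨u2, g2⟩, l2⟩
      · rw [T.evalL_nil]
        exact Has.cat (by decide) (T.has_ball g) T.has_eps
      · rcases Int.units_eq_one_or u2 with rfl | rfl
        · exact Has.cat (by decide) (T.has_ball g) (i1 g2 l2 rfl)
        · have hg : g ∉ AM hw.toHwBase (X := X) := by
            intro hmem
            have h12 : (1 : ℤˣ) = -1 := (List.isChain_cons_cons.1 hR).1 hmem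
            exact absurd h12 (by decide)
          exact Has.cat (by decide) (T.has_bnA hw ih hsm hg) (i2 g2 l2 rfl)
    · intro g0 l0 he
      obtain ⟨he1, -⟩ := List.cons.inj he
      obtain ⟨hu, -⟩ := Prod.mk.inj he1
      subst hu
      have hev : T.evalL ((-1, g) :: l') = T.rho⁻¹ * (T.bas g * T.evalL l') := by
        rw [T.evalL_cons]
        simp [mul_assoc]
      rw [hev]
      refine Has.cat (b := Srt.tn) (by decide) T.has_rn ?_
      rcases l' with _ | ⟨⟨u2, g2⟩, l2⟩
      · rw [T.evalL_nil]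
        exact Has.cat (by decide) (T.has_ball g) T.has_eps
      · rcases Int.units_eq_one_or u2 with rfl | rfl
        · have hg : g ∉ BM hw.toHwBase T.μ := by
            intro hmem
            have h12 : (-1 : ℤˣ) = 1 := (List.isChain_cons_cons.1 hR).1 hmem
            exact absurd h12 (by decide)
          exact Has.cat (by decide) (T.has_bnB hw hN ih hc (by omega) hg) (i1 g2 l2 rfl)
        · exact Has.cat (by decide) (T.has_ball g) (i2 g2 l2 rfl)

/-- Step of the induction: `ctrl_exists`; empty list: `has_bn1`, `n1 ← bn1·eps`; otherwise `has_ball`, `has_tail`, `n1 ← ball·rpos | ball·rneg`.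
(`N = 0` is impossible: `Len.zero`.) -/
theorem complete1_step {N : ℕ} (ih : T.IH1 N) {x : X} (hx : T.Len N x) (h1 : x ≠ 1) :
    T.Has .n1 x := by
  have hN : 0 < N := by
    rcases Nat.eq_zero_or_pos N with rfl | h
    · exact absurd (Len.zero T hx) h1
    · exact h
  obtain ⟨w, ⟨a, N', hc, hW, haN⟩, rfl⟩ := T.ctrl_exists hw hx
  obtain ⟨i1, i2⟩ := T.has_tail hw hN ih w.toList N' w.chain hW (by omega)
  unfold eval at h1 ⊢
  rcases hl : w.toList with _ | ⟨⟨u, g⟩, l⟩
  · rw [hl, T.evalL_nil, mul_one] at h1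
    rw [T.evalL_nil]
    have hsm : ∃ m, 2 * m < N ∧ T.Small m w.head.2 := by
      obtain ⟨-, m, hm, hs⟩ := hc
      exact ⟨m, by omega, hs⟩
    have hne : w.head ≠ 1 := fun e => h1 (by rw [e, map_one])
    exact Has.cat (by decide) (T.has_bn1 hw ih hsm hne) T.has_eps
  · rw [← hl]
    rcases Int.units_eq_one_or u with rfl | rfl
    · exact Has.cat (by decide) (T.has_ball w.head) (i1 g l hl)
    · exact Has.cat (by decide) (T.has_ball w.head) (i2 g l hl)

/-- **COMPLETENESS of `n1`.** -/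
theorem complete1 : ∀ N, T.IH1 N := by
  intro N
  induction N with
  | zero => intro k x hk; omega
  | succ N ih =>
    intro k x hk hx h1
    have ih' : T.IH1 k := fun k' x' hk' => ih k' x' (by omega)
    exact T.complete1_step hw ih' hx h1

end Tower

end Claimed.Agent.R152.CT
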