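import Claimed.Agent.R152.CT.Complete1
import Claimed.Agent.R152.CT.CR

/-!
# Row 152, module CT, file 17: COMPLETENESS of the sort `nl`: every right coset `L x ≠ L` contains the value of a name.

Strong induction on the length `N` of `x`; inside, induction on the number of `ρ` of a controlled reduced form `x = g₀ ρ^{u₁} g₁ ⋯`,
`g₀ = (h,y)`.  "`x ~ x'`" means `x = λ x'` with `λ ∈ L`.  `CR` = lemma CR for small elements of `Y`.  Tails are named by `has_tail` (with `complete1`).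
* no `ρ`:  CR(y).  `y ∈ L_Y r`: `x ~ (1,r)(h,1)`, rules `bnS ← yrep·wh`, `nl ← bnS·eps`.  `y ∈ L_Y`: then `h ∉ K` (otherwise `x ∈ L`): `x ~ (kh,1)`
  (`has_ek`), rule `bnS ← ek·yall`.
* `u₁ = -1`:  CR(y).  `y ∈ L_Y r`: `x ~ (1,r)(h,1) ρ⁻¹ ⋯`, rules `bnSA ← yrep·wh`, `nl ← bnSA·rneg`.  `y ∈ L_Y`: `x ~ (h,1) ρ⁻¹ ⋯`; `h ∉ K P`:
  `x ~ (kh,1) ρ⁻¹ ⋯` (`has_ekp`), rule `bnSA ← ekp·yall`;  `h ∈ K P`: `p'` from (H5), `(p',1) ρ⁻¹ = ρ⁻¹ (p', π p')`, so `x ~ (h, π p') g₁ ⋯`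
  (one `ρ` less, still controlled).
* `u₁ = +1`:  `h ∉ K P`: `x ~ (kh, y) ρ ⋯`, rules `bnSB ← ekp·yall`, `nl ← bnSB·rpos`.  `h ∈ K P`: `p'` from (H5), `y'' = y π(p')⁻¹`,
  `(h,y) = (h p'⁻¹,1)(1,y'')(p', π p')`.  CR(y'').  `y'' ∈ L_Y`: `(p', π p') ρ = ρ (p',1)`, `x ~ (h,1) g₁ ⋯`.  `y'' ∈ L_Y r`: `x ~ (1,r)(p', π p') ρ ⋯`,
  rule `bnSB ← yrep·gr`.
-/

namespace Claimed.Agent.R152.CT

open Monoid.Coprod HNNExtension

universe u

variable {H : Type u} [Group H] {n : ℕ} {X : Type} [Group X]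

namespace Tower

theorem Goal.left {B : HwBase H n} {T : Tower B X} {x : X} (h : T.Goal x) {lam : X}
    (hl : lam ∈ T.L) : T.Goal (lam * x) := by
  obtain ⟨ν, h1, h2⟩ := h
  exact ⟨ν, h1, by rw [mul_assoc]; exact T.L.mul_mem hl h2⟩

theorem Goal.of_has {B : HwBase H n} {T : Tower B X} {x : X} (h : T.Has .nl x) : T.Goal x :=
  ⟨x, h, by rw [mul_inv_cancel]; exact T.L.one_mem⟩

variable (hw : Hardware H n) (T : Tower hw.toHwBase X)

/-- (H5) in `Y` (`hw.h5`, `small_of_smallF`) -/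
theorem h5Y {a : ℕ} {h : H} (hl : hw.HLen a h) (hkp : ∃ k ∈ hw.K, ∃ p ∈ hw.P, h = k * p) :
    ∃ p' : hw.P, h * (p' : H)⁻¹ ∈ hw.K ∧ ∃ m, 16 * m ≤ a ∧ T.Small m (piY hw.toHwBase T.μ p') := by
  obtain ⟨w, rfl, hw2⟩ := hl
  obtain ⟨k, hk, p, hp, e⟩ := hkp
  obtain ⟨p', h1, m, hm, hs⟩ := hw.h5 w k ⟨p, hp⟩ hk e
  exact ⟨p', h1, m, hm.trans hw2, T.small_of_smallF hs⟩

/-- `bas (h,y) * bas (k h,1)⁻¹ ∈ L` -/
theorem absorb_aux1 {h k : H} {y : YG X} (hk : k ∈ hw.K) (hy : y ∈ T.LY) :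
    T.bas (h, y) * (T.bas (k * h, 1))⁻¹ ∈ T.L := by
  have e : T.bas (h, y) * (T.bas (k * h, 1))⁻¹ = T.bas (k⁻¹, 1) * T.bas (1, y) := by
    rw [← map_inv, ← map_mul, ← map_mul]
    congr 1
    ext <;> simp
  rw [e]
  exact T.L.mul_mem (T.basK_mem_L (hw.K.inv_mem hk)) hy

/-- `ρ⁻¹ (p, π p) = (p,1) ρ⁻¹` -/
theorem absorb_aux2 (p : hw.P) :
    T.rho⁻¹ * T.bas ((p : H), piY hw.toHwBase T.μ p) = T.bas ((p : H), 1) * T.rho⁻¹ := by
  rw [← T.rho_conj p]; group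

/-- `(p, π p) ρ = ρ (p,1)` -/
theorem absorb_aux3 (p : hw.P) :
    T.bas ((p : H), piY hw.toHwBase T.μ p) * T.rho = T.rho * T.bas ((p : H), 1) := by
  rw [← T.rho_conj p]; group

theorem absorb_nil {N a : ℕ} (hN : 0 < N) (ih : T.IHL N) {g₀ : H × YG X}
    (hc : T.SylC a g₀) (ha : a ≤ N) (hx : T.bas g₀ ∉ T.L) : T.Goal (T.bas g₀) := by
  obtain ⟨hl, m, hm, hs⟩ := hc
  rcases g₀ with ⟨h, y⟩
  have h2m : 2 * m < N := by omega
  rcases T.CR hw ih h2m hs with hy | ⟨r, hr, hyr⟩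
  · have hK : h ∉ hw.K := by
      intro hk
      apply hx
      rw [T.bas_split]
      exact T.L.mul_mem (T.basK_mem_L hk) hy
    obtain ⟨k, hk, hek⟩ := T.has_ek hw hK
    have h1 : T.Has .bnS (T.bas (k * h, 1) * T.bas (1, 1)) :=
      Has.cat (by decide) hek (T.has_yall 1)
    have e1 : T.bas ((1 : H), (1 : YG X)) = 1 := map_one T.bas
    rw [e1, mul_one] at h1
    exact ⟨_, Has.unit (by decide) h1, T.absorb_aux1 hw hk hy⟩
  · have h1 : T.Has .bnS (T.bas (1, r) * T.bas (h, 1)) := Has.cat (by decide) hr (T.has_wh h)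
    refine ⟨_, Has.unit (by decide) h1, ?_⟩
    have e : T.bas (h, y) * (T.bas (1, r) * T.bas (h, 1))⁻¹ = T.bas (1, y * r⁻¹) := by
      rw [← map_mul, ← map_inv, ← map_mul]
      congr 1
      ext <;> simp
    rw [e]
    exact hyr

theorem absorb_neg {N a N' : ℕ} (hN : 0 < N) (ih : T.IHL N) {g₀ g₁ : H × YG X}
    {l : List (ℤˣ × (H × YG X))} (hr : T.Red ((-1, g₁) :: l)) (hc : T.SylC a g₀)
    (hl : T.LW ((-1, g₁) :: l) N') (ha : a + N' ≤ N) :
    T.Goal (T.bas g₀ * T.evalL ((-1, g₁) :: l)) ∨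
    ∃ (g₀' : H × YG X) (lam : X), T.SylC a g₀' ∧ lam ∈ T.L ∧
      T.bas g₀ * T.evalL ((-1, g₁) :: l) = lam * (T.bas (g₀' * g₁) * T.evalL l) := by
  have htl : T.Has .rneg (T.evalL ((-1, g₁) :: l)) :=
    (T.has_tail hw hN (T.complete1 hw N) _ N' hr hl (by omega)).2 g₁ l rfl
  obtain ⟨hlen, m, hm, hs⟩ := hc
  rcases g₀ with ⟨h, y⟩
  have h2m : 2 * m < N := by omega
  rcases T.CR hw ih h2m hs with hy | ⟨r, hrr, hyr⟩
  · by_cases hkp : ∃ k ∈ hw.K, ∃ p ∈ hw.P, h = k * p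
    · right
      obtain ⟨p', hK', m', hm', hs'⟩ := T.h5Y hw hlen hkp
      refine ⟨(h, piY hw.toHwBase T.μ p'),
        T.bas (1, y) * T.bas (h * (p' : H)⁻¹, 1) * T.rho⁻¹ * (T.bas (h * (p' : H)⁻¹, 1))⁻¹,
        ⟨hlen, m', hm', hs'⟩, ?_, ?_⟩
      · exact T.L.mul_mem (T.L.mul_mem (T.L.mul_mem hy (T.basK_mem_L hK'))
          (T.L.inv_mem T.rho_mem_L)) (T.L.inv_mem (T.basK_mem_L hK'))
      · have e1 : (T.bas (h * (p' : H)⁻¹, 1))⁻¹ * T.bas (h, piY hw.toHwBase T.μ p') =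
            T.bas ((p' : H), piY hw.toHwBase T.μ p') := by
          rw [← map_inv, ← map_mul]
          congr 1
          ext <;> simp
        have e2 : T.bas (1, y) * T.bas (h * (p' : H)⁻¹, 1) * T.bas ((p' : H), 1) = T.bas (h, y) := by
          rw [← map_mul, ← map_mul]
          congr 1
          ext <;> simp
        rw [T.evalL_cons, map_mul]
        have e3 : T.rho ^ (((-1 : ℤˣ) : ℤˣ) : ℤ) = T.rho⁻¹ := by simp
        rw [e3]
        calc T.bas (h, y) * (T.rho⁻¹ * T.bas g₁ * T.evalL l)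
            = (T.bas (1, y) * T.bas (h * (p' : H)⁻¹, 1) * T.bas ((p' : H), 1)) * T.rho⁻¹ *
                (T.bas g₁ * T.evalL l) := by rw [e2]; group
          _ = T.bas (1, y) * T.bas (h * (p' : H)⁻¹, 1) * (T.bas ((p' : H), 1) * T.rho⁻¹) *
                (T.bas g₁ * T.evalL l) := by group
          _ = T.bas (1, y) * T.bas (h * (p' : H)⁻¹, 1) *
                (T.rho⁻¹ * ((T.bas (h * (p' : H)⁻¹, 1))⁻¹ * T.bas (h, piY hw.toHwBase T.μ p'))) *
                (T.bas g₁ * T.evalL l) := by rw [e1, T.absorb_aux2 hw p']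
          _ = _ := by group
    · left
      have hkp' : ∀ k ∈ hw.K, ∀ p ∈ hw.P, h ≠ k * p :=
        fun k hk p hp e => hkp ⟨k, hk, p, hp, e⟩
      obtain ⟨k, hk, hek⟩ := T.has_ekp hw hkp'
      have h1 : T.Has .bnSA (T.bas (k * h, 1) * T.bas (1, 1)) :=
        Has.cat (by decide) hek (T.has_yall 1)
      have e1 : T.bas ((1 : H), (1 : YG X)) = 1 := map_one T.bas
      rw [e1, mul_one] at h1
      refine ⟨_, Has.cat (i := .nl) (by decide) h1 htl, ?_⟩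
      have e : T.bas (h, y) * T.evalL ((-1, g₁) :: l) *
          (T.bas (k * h, 1) * T.evalL ((-1, g₁) :: l))⁻¹ =
          T.bas (h, y) * (T.bas (k * h, 1))⁻¹ := by group
      rw [e]
      exact T.absorb_aux1 hw hk hy
  · left
    have h1 : T.Has .bnSA (T.bas (1, r) * T.bas (h, 1)) := Has.cat (by decide) hrr (T.has_wh h)
    refine ⟨_, Has.cat (i := .nl) (by decide) h1 htl, ?_⟩
    have e : T.bas (h, y) * T.evalL ((-1, g₁) :: l) *
        (T.bas (1, r) * T.bas (h, 1) * T.evalL ((-1, g₁) :: l))⁻¹ = T.bas (1, y * r⁻¹) := by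
      have e' : T.bas (h, y) * (T.bas (1, r) * T.bas (h, 1))⁻¹ = T.bas (1, y * r⁻¹) := by
        rw [← map_mul, ← map_inv, ← map_mul]
        congr 1
        ext <;> simp
      rw [← e']; group
    rw [e]
    exact hyr

theorem absorb_pos {N a N' : ℕ} (hN : 0 < N) (ih : T.IHL N) {g₀ g₁ : H × YG X}
    {l : List (ℤˣ × (H × YG X))} (hr : T.Red ((1, g₁) :: l)) (hc : T.SylC a g₀)
    (hl : T.LW ((1, g₁) :: l) N') (ha : a + N' ≤ N) :
    T.Goal (T.bas g₀ * T.evalL ((1, g₁) :: l)) ∨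
    ∃ (g₀' : H × YG X) (lam : X), T.SylC a g₀' ∧ lam ∈ T.L ∧
      T.bas g₀ * T.evalL ((1, g₁) :: l) = lam * (T.bas (g₀' * g₁) * T.evalL l) := by
  have htl : T.Has .rpos (T.evalL ((1, g₁) :: l)) :=
    (T.has_tail hw hN (T.complete1 hw N) _ N' hr hl (by omega)).1 g₁ l rfl
  obtain ⟨hlen, m, hm, hs⟩ := hc
  rcases g₀ with ⟨h, y⟩
  by_cases hkp : ∃ k ∈ hw.K, ∃ p ∈ hw.P, h = k * p
  · obtain ⟨p', hK', m', hm', hs'⟩ := T.h5Y hw hlen hkp
    have hs'' : T.Small (m + 2 * m') (y * (piY hw.toHwBase T.μ p')⁻¹) := hs.mul T (hs'.inv T)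
    have h2m : 2 * (m + 2 * m') < N := by omega
    rcases T.CR hw ih h2m hs'' with hy | ⟨r, hrr, hyr⟩
    · right
      refine ⟨(h, 1),
        T.bas (h * (p' : H)⁻¹, 1) * T.bas (1, y * (piY hw.toHwBase T.μ p')⁻¹) * T.rho *
          (T.bas (h * (p' : H)⁻¹, 1))⁻¹, ⟨hlen, 0, by omega, Small.one T⟩, ?_, ?_⟩
      · exact T.L.mul_mem (T.L.mul_mem (T.L.mul_mem (T.basK_mem_L hK') hy) T.rho_mem_L)
          (T.L.inv_mem (T.basK_mem_L hK'))
      · have e1 : (T.bas (h * (p' : H)⁻¹, 1))⁻¹ * T.bas (h, 1) = T.bas ((p' : H), 1) := by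
          rw [← map_inv, ← map_mul]
          congr 1
          ext <;> simp
        have e2 : T.bas (h * (p' : H)⁻¹, 1) * T.bas (1, y * (piY hw.toHwBase T.μ p')⁻¹) *
            T.bas ((p' : H), piY hw.toHwBase T.μ p') = T.bas (h, y) := by
          rw [← map_mul, ← map_mul]
          congr 1
          ext <;> simp
        rw [T.evalL_cons, map_mul]
        have e3 : T.rho ^ (((1 : ℤˣ) : ℤˣ) : ℤ) = T.rho := by simp
        rw [e3]
        calc T.bas (h, y) * (T.rho * T.bas g₁ * T.evalL l)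
            = T.bas (h * (p' : H)⁻¹, 1) * T.bas (1, y * (piY hw.toHwBase T.μ p')⁻¹) *
                (T.bas ((p' : H), piY hw.toHwBase T.μ p') * T.rho) * (T.bas g₁ * T.evalL l) := by
              rw [← e2]; group
          _ = T.bas (h * (p' : H)⁻¹, 1) * T.bas (1, y * (piY hw.toHwBase T.μ p')⁻¹) *
                (T.rho * ((T.bas (h * (p' : H)⁻¹, 1))⁻¹ * T.bas (h, 1))) *
                (T.bas g₁ * T.evalL l) := by rw [e1, T.absorb_aux3 hw p']
          _ = _ := by group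
    · left
      have h1 : T.Has .bnSB (T.bas (1, r) * T.bas ((p' : H), piY hw.toHwBase T.μ p')) :=
        Has.cat (by decide) hrr (T.has_gr p')
      refine ⟨_, Has.cat (i := .nl) (by decide) h1 htl, ?_⟩
      have e : T.bas (h, y) * T.evalL ((1, g₁) :: l) *
          (T.bas (1, r) * T.bas ((p' : H), piY hw.toHwBase T.μ p') * T.evalL ((1, g₁) :: l))⁻¹ =
          T.bas (h * (p' : H)⁻¹, 1) * T.bas (1, y * (piY hw.toHwBase T.μ p')⁻¹ * r⁻¹) := by
        have e' : T.bas (h, y) * (T.bas (1, r) * T.bas ((p' : H), piY hw.toHwBase T.μ p'))⁻¹ =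
            T.bas (h * (p' : H)⁻¹, 1) * T.bas (1, y * (piY hw.toHwBase T.μ p')⁻¹ * r⁻¹) := by
          rw [← map_mul, ← map_inv, ← map_mul, ← map_mul]
          congr 1
          ext <;> simp [mul_assoc]
        rw [← e']; group
      rw [e]
      exact T.L.mul_mem (T.basK_mem_L hK') hyr
  · left
    have hkp' : ∀ k ∈ hw.K, ∀ p ∈ hw.P, h ≠ k * p :=
      fun k hk p hp e => hkp ⟨k, hk, p, hp, e⟩
    obtain ⟨k, hk, hek⟩ := T.has_ekp hw hkp'
    have h1 : T.Has .bnSB (T.bas (k * h, 1) * T.bas (1, y)) :=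
      Has.cat (by decide) hek (T.has_yall y)
    refine ⟨_, Has.cat (i := .nl) (by decide) h1 htl, ?_⟩
    have e : T.bas (h, y) * T.evalL ((1, g₁) :: l) *
        (T.bas (k * h, 1) * T.bas (1, y) * T.evalL ((1, g₁) :: l))⁻¹ = T.bas (k⁻¹, 1) := by
      have e' : T.bas (h, y) * (T.bas (k * h, 1) * T.bas (1, y))⁻¹ = T.bas (k⁻¹, 1) := by
        rw [← map_mul, ← map_inv, ← map_mul]
        congr 1
        ext <;> simp
      rw [← e']; group
    rw [e]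
    exact T.basK_mem_L (hw.K.inv_mem hk)

/-- induction on `l` (`absorb_nil`, `absorb_neg`, `absorb_pos`, `SylC.mul`, `Goal.left`; exponents are `1` or `-1`: `Int.units_eq_one_or`). -/
theorem absorb {N : ℕ} (hN : 0 < N) (ih : T.IHL N) :
    ∀ (l : List (ℤˣ × (H × YG X))) (g₀ : H × YG X) (a N' : ℕ), T.Red l → T.SylC a g₀ →
      T.LW l N' → a + N' ≤ N → T.bas g₀ * T.evalL l ∉ T.L →
        T.Goal (T.bas g₀ * T.evalL l) := by
  intro l
  induction l with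
  | nil =>
    intro g₀ a N' _ hc _ ha hx
    rw [T.evalL_nil, mul_one] at hx ⊢
    exact T.absorb_nil hw hN ih hc (by omega) hx
  | cons p l ihl =>
    intro g₀ a N' hr hc hl ha hx
    rcases p with ⟨u, g₁⟩
    have key : T.Goal (T.bas g₀ * T.evalL ((u, g₁) :: l)) ∨
        ∃ (g₀' : H × YG X) (lam : X), T.SylC a g₀' ∧ lam ∈ T.L ∧
          T.bas g₀ * T.evalL ((u, g₁) :: l) = lam * (T.bas (g₀' * g₁) * T.evalL l) := by
      rcases Int.units_eq_one_or u with rfl | rfl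
      · exact T.absorb_pos hw hN ih hr hc hl ha
      · exact T.absorb_neg hw hN ih hr hc hl ha
    rcases key with hg | ⟨g₀', lam, hc', hlam, e⟩
    · exact hg
    · cases hl with
      | @cons _ _ _ a₁ N'' hc₁ hl' =>
        rw [e] at hx ⊢
        apply Goal.left _ hlam
        apply ihl (g₀' * g₁) (a + a₁) N'' hr.tail (hc'.mul T hc₁) hl' (by omega)
        intro hmem
        exact hx (T.L.mul_mem hlam hmem)

/-- `ctrl_exists` + `absorb`  (`N = 0` is impossible: `x = 1 ∈ L`). -/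
theorem completeL_step {N : ℕ} (ih : T.IHL N) {x : X} (hx : T.Len N x) (hL : x ∉ T.L) :
    T.Goal x := by
  have hN : 0 < N := by
    rcases Nat.eq_zero_or_pos N with rfl | h
    · exact absurd ((hx.zero T) ▸ T.L.one_mem) hL
    · exact h
  obtain ⟨w, ⟨a, N', hc, hl, ha⟩, rfl⟩ := T.ctrl_exists hw hx
  exact T.absorb hw hN ih w.toList w.head a N' w.chain hc hl ha hL

/-- **COMPLETENESS of `nl`.** -/
theorem completeL : ∀ N, T.IHL N := by
  intro N
  induction N with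
  | zero => intro k x hk; omega
  | succ N ih =>
    intro k x hk hx h1
    have ih' : T.IHL k := fun k' x' hk' => ih k' x' (by omega)
    exact T.completeL_step hw ih' hx h1

/-- (iv):  `w ∉ L ⟹ θ(w)⁻¹ j θ(w) ∈ L`  (`short_conj` for `v = w⁻¹`, `N` large; `bas_inl`, `bas_jY`). -/
theorem conj_mem_L {x : X} (hx : x ∉ T.L) : (T.θ x)⁻¹ * T.j * T.θ x ∈ T.L := by
  obtain ⟨m, hm⟩ := T.exists_Len x
  have hx' : x⁻¹ ∉ T.L := fun h => hx (by simpa using T.L.inv_mem h)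
  have h := T.short_conj hw (T.completeL hw (m + 1)) (Nat.lt_succ_self m) (hm.inv T) hx'
  rw [T.mem_LY_iff] at h
  have e : ((1 : H), inl x⁻¹ * jY X * (inl x⁻¹ : YG X)⁻¹) =
      (1, inl x)⁻¹ * (1, jY X) * (1, inl x) := by
    ext <;> simp
  rw [e, map_mul, map_mul, map_inv, T.bas_inl, T.bas_jY] at h
  exact h

end Tower

end Claimed.Agent.R152.CT
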