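import Claimed.Agent.R152.CT.TowerApi

/-!
# Row 152, module CT, file 6: left multiplication of reduced words; subgroups `⟨S, ρ⟩` (lemma GGF).
-/

namespace Claimed.Agent.R152.CT

open Monoid.Coprod HNNExtension

universe u

variable {H : Type u} [Group H] {n : ℕ} {B : HwBase H n} {X : Type} [Group X]

namespace Tower

variable (T : Tower B X)

/-- reduced tails -/
abbrev Red (l : List (ℤˣ × (H × YG X))) : Prop :=
  l.IsChain (fun a b => a.2 ∈ toSubgroup (AM B (X := X)) (BM B T.μ) a.1 → a.1 = b.1)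

theorem evalL_nil : T.evalL [] = 1 := rfl

theorem evalL_cons (u : ℤˣ) (g : H × YG X) (l : List (ℤˣ × (H × YG X))) :
    T.evalL ((u, g) :: l) = T.rho ^ (u : ℤ) * T.bas g * T.evalL l := by
  simp [evalL]

/-- left multiplication by an element of the base -/
theorem eval_bas_mul (g : H × YG X) (w : T.RW) :
    ∃ w' : T.RW, w'.head = g * w.head ∧ w'.toList = w.toList ∧ T.eval w' = T.bas g * T.eval w :=
  ⟨⟨g * w.head, w.toList, w.chain⟩, rfl, rfl, by simp [eval, mul_assoc]⟩

/-- the tail of a reduced word, with a new head -/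
theorem eval_tail (g₀ : H × YG X) (w : T.RW) (u : ℤˣ) (g : H × YG X)
    (l : List (ℤˣ × (H × YG X))) (hw : w.toList = (u, g) :: l) :
    ∃ w' : T.RW, w'.head = g₀ ∧ w'.toList = l := by
  refine ⟨⟨g₀, l, ?_⟩, rfl, rfl⟩
  have := w.chain
  rw [hw] at this
  exact this.tail

/-- left multiplication by `ρ^u`, no pinch.  New word: head `1`, list `(u, w.head) :: w.toList`. -/
theorem eval_rho_nopinch (u : ℤˣ) (w : T.RW)
    (h : ∀ g l, w.toList = (-u, g) :: l → w.head ∉ toSubgroup (AM B (X := X)) (BM B T.μ) u) :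
    ∃ w' : T.RW, w'.head = 1 ∧ w'.toList = (u, w.head) :: w.toList ∧
      T.eval w' = T.rho ^ (u : ℤ) * T.eval w := by
  refine ⟨⟨1, (u, w.head) :: w.toList, ?_⟩, rfl, rfl, ?_⟩
  · rw [List.isChain_cons]
    refine ⟨?_, w.chain⟩
    intro y hy hmem
    rcases hl : w.toList with _ | ⟨⟨u', g'⟩, l⟩
    · rw [hl] at hy
      simp at hy
    · rw [hl] at hy
      simp only [List.head?_cons, Option.mem_def, Option.some.injEq] at hy
      subst hy
      show u = u'
      by_contra hne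
      have hu' : u' = -u := by
        rcases Int.units_eq_one_or u with rfl | rfl <;>
          rcases Int.units_eq_one_or u' with rfl | rfl <;> simp_all
      subst hu'
      exact h g' l hl hmem
  · show T.bas 1 * T.evalL ((u, w.head) :: w.toList) = T.rho ^ (u : ℤ) * (T.bas w.head * T.evalL w.toList)
    rw [map_one, one_mul, evalL_cons, mul_assoc]

/-- pinch `ρ (p,1) ρ⁻¹ = (p, π p)` at the head -/
theorem eval_rho_pinch_pos (w : T.RW) (p : B.P) (g : H × YG X) (l : List (ℤˣ × (H × YG X)))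
    (hh : w.head = ((p : H), 1)) (hl : w.toList = (-1, g) :: l) :
    ∃ w' : T.RW, w'.head = ((p : H), piY B T.μ p) * g ∧ w'.toList = l ∧
      T.eval w' = T.rho * T.eval w := by
  obtain ⟨w', h1, h2⟩ := T.eval_tail (((p : H), piY B T.μ p) * g) w (-1) g l hl
  refine ⟨w', h1, h2, ?_⟩
  show T.bas w'.head * T.evalL w'.toList = T.rho * (T.bas w.head * T.evalL w.toList)
  rw [h1, h2, hh, hl, evalL_cons, map_mul, ← T.rho_conj p]
  simp only [Units.val_neg, Units.val_one, zpow_neg, zpow_one, mul_assoc]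

/-- pinch `ρ⁻¹ (p, π p) ρ = (p,1)` at the head -/
theorem eval_rho_pinch_neg (w : T.RW) (p : B.P) (g : H × YG X) (l : List (ℤˣ × (H × YG X)))
    (hh : w.head = ((p : H), piY B T.μ p)) (hl : w.toList = (1, g) :: l) :
    ∃ w' : T.RW, w'.head = ((p : H), 1) * g ∧ w'.toList = l ∧
      T.eval w' = T.rho⁻¹ * T.eval w := by
  obtain ⟨w', h1, h2⟩ := T.eval_tail (((p : H), 1) * g) w 1 g l hl
  refine ⟨w', h1, h2, ?_⟩
  show T.bas w'.head * T.evalL w'.toList = T.rho⁻¹ * (T.bas w.head * T.evalL w.toList)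
  rw [h1, h2, hh, hl, evalL_cons, map_mul, ← T.rho_conj p]
  simp only [Units.val_one, zpow_one, mul_assoc, inv_mul_cancel_left]

variable (S : Subgroup (H × YG X))

/-- `S` is compatible with the stable letter -/
def Compat : Prop := ∀ p : B.P, ((p : H), (1 : YG X)) ∈ S ↔ ((p : H), piY B T.μ p) ∈ S

/-- `⟨S, ρ⟩` -/
noncomputable def Lhat : Subgroup X := Subgroup.closure (T.bas '' S ∪ {T.rho})

/-- one step of `Lhat_form`: left multiplication by `ρ^u` -/
theorem Lhat_form_step (hS : T.Compat S) (u : ℤˣ) (w : T.RW) (hh : w.head ∈ S)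
    (hl : ∀ p ∈ w.toList, p.2 ∈ S) :
    ∃ w' : T.RW, T.eval w' = T.rho ^ (u : ℤ) * T.eval w ∧ w'.head ∈ S ∧
      ∀ p ∈ w'.toList, p.2 ∈ S := by
  by_cases hp : ∀ g l, w.toList = (-u, g) :: l →
      w.head ∉ toSubgroup (AM B (X := X)) (BM B T.μ) u
  · obtain ⟨w', h1, h2, h3⟩ := T.eval_rho_nopinch u w hp
    refine ⟨w', h3, h1 ▸ S.one_mem, ?_⟩
    rw [h2]
    intro p hpm
    rcases List.mem_cons.1 hpm with rfl | hpm
    · exact hh
    · exact hl p hpm
  · simp only [not_forall, not_not] at hp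
    obtain ⟨g, l, hwl, hmem⟩ := hp
    have hg : g ∈ S := hl (-u, g) (by rw [hwl]; exact List.mem_cons_self)
    have hl' : ∀ p ∈ l, p.2 ∈ S := fun p hpm => hl p (by rw [hwl]; exact List.mem_cons_of_mem _ hpm)
    rcases Int.units_eq_one_or u with rfl | rfl
    · obtain ⟨p, hp⟩ := hmem
      have hwh : w.head = ((p : H), 1) := hp.symm
      obtain ⟨w', h1, h2, h3⟩ := T.eval_rho_pinch_pos w p g l hwh hwl
      refine ⟨w', by rw [h3]; simp, ?_, by rw [h2]; exact hl'⟩
      rw [h1]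
      exact S.mul_mem ((hS p).1 (hwh ▸ hh)) hg
    · obtain ⟨p, hp⟩ := hmem
      have hwh : w.head = ((p : H), piY B T.μ p) := hp.symm
      obtain ⟨w', h1, h2, h3⟩ := T.eval_rho_pinch_neg w p g l hwh (by simpa using hwl)
      refine ⟨w', by rw [h3]; simp, ?_, by rw [h2]; exact hl'⟩
      rw [h1]
      exact S.mul_mem ((hS p).2 (hwh ▸ hh)) hg

/-- Every element of `⟨S,ρ⟩` is the value of a reduced word with all entries in `S`.
Proof: `Subgroup.closure_induction_left`; the three lemmas above; in a pinch the new head is in `S` by compatibility. -/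
theorem Lhat_form (hS : T.Compat S) {x : X} (hx : x ∈ T.Lhat S) :
    ∃ w : T.RW, T.eval w = x ∧ w.head ∈ S ∧ ∀ p ∈ w.toList, p.2 ∈ S := by
  unfold Lhat at hx
  induction hx using Subgroup.closure_induction_left with
  | one => exact ⟨⟨1, [], List.isChain_nil⟩, by simp [eval, evalL], S.one_mem, by simp⟩
  | mul_left y hy z _ ih =>
    obtain ⟨w, rfl, hh, hl⟩ := ih
    rcases hy with ⟨s, hs, rfl⟩ | hy
    · obtain ⟨w', h1, h2, h3⟩ := T.eval_bas_mul s w
      exact ⟨w', h3, h1 ▸ S.mul_mem hs hh, h2 ▸ hl⟩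
    · rw [Set.mem_singleton_iff] at hy
      subst hy
      obtain ⟨w', h1, h2, h3⟩ := T.Lhat_form_step S hS 1 w hh hl
      exact ⟨w', by rw [h1]; simp, h2, h3⟩
  | inv_mul_cancel y hy z _ ih =>
    obtain ⟨w, rfl, hh, hl⟩ := ih
    rcases hy with ⟨s, hs, rfl⟩ | hy
    · obtain ⟨w', h1, h2, h3⟩ := T.eval_bas_mul s⁻¹ w
      exact ⟨w', by rw [h3, map_inv], h1 ▸ S.mul_mem (S.inv_mem hs) hh, h2 ▸ hl⟩
    · rw [Set.mem_singleton_iff] at hy
      subst hy
      obtain ⟨w', h1, h2, h3⟩ := T.Lhat_form_step S hS (-1) w hh hl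
      exact ⟨w', by rw [h1]; simp, h2, h3⟩

/-- **GGF.**  A reduced word with value in `⟨S,ρ⟩`: if it has no `ρ`, its head is in `S`; otherwise its head is in
`S · C`, `C` the associated subgroup that passes through the first `ρ^u`.  Proof: `Lhat_form` + `eval_unique`. -/
theorem Lhat_head (hS : T.Compat S) (w : T.RW) (hw : T.eval w ∈ T.Lhat S) :
    (w.toList = [] → w.head ∈ S) ∧
      ∀ u ∈ w.toList.head?.map Prod.fst,
        ∃ s ∈ S, s⁻¹ * w.head ∈ toSubgroup (AM B (X := X)) (BM B T.μ) (-u) := by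
  obtain ⟨w0, h0, hh0, -⟩ := T.Lhat_form S hS hw
  obtain ⟨hm, hu⟩ := T.eval_unique h0
  refine ⟨fun hnil => ?_, fun u huw => ⟨w0.head, hh0, hu u ?_⟩⟩
  · rw [hnil, List.map_nil, List.map_eq_nil_iff] at hm
    have h1 : T.bas w0.head * T.evalL w0.toList = T.bas w.head * T.evalL w.toList := h0
    rw [hm, hnil, evalL_nil, mul_one, mul_one] at h1
    rw [← T.bas_injective h1]
    exact hh0
  · rw [← List.head?_map, hm, List.head?_map]
    exact huw

end Tower

end Claimed.Agent.R152.CT
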