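import Claimed.Agent.R152.CT.Small
import Claimed.Agent.R152.CT.RWops
import Claimed.Agent.R152.CT.Gram

/-!
# Row 152, module CT, file 15: CONTROLLED reduced forms (the guard).

`SylC a g`, `g = (h,y)`: `h` has a hardware word of length `≤ a` and `y` is `Small m` with `16 m ≤ a`.
Every `x ∈ X` of length `≤ N` is the value of a reduced word `g₀ ρ^{u₁} g₁ ⋯` with `SylC aᵢ gᵢ` and `Σ aᵢ + #ρ ≤ N`.
The invariant survives both pinches: `ρ (p,1) ρ⁻¹ = (p, π p)` creates the content `π p`, which is small by (H4); the other pinch deletes content.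
-/

namespace Claimed.Agent.R152.CT

open Monoid.Coprod HNNExtension

universe u

variable {H : Type u} [Group H] {n : ℕ} {X : Type} [Group X]

/-- `h` has a hardware word of length `≤ a` -/
def HwBase.HLen (B : HwBase H n) (a : ℕ) (h : H) : Prop := ∃ w : FH n, B.φ w = h ∧ w.norm ≤ a

namespace Tower

section
variable {B : HwBase H n} (T : Tower B X)

/-- controlled syllables -/
def SylC (a : ℕ) (g : H × YG X) : Prop :=
  B.HLen a g.1 ∧ ∃ m, 16 * m ≤ a ∧ T.Small m g.2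

/-- controlled tails, with their weight -/
inductive LW : List (ℤˣ × (H × YG X)) → ℕ → Prop
  | nil : LW [] 0
  | cons {u : ℤˣ} {g : H × YG X} {l : List (ℤˣ × (H × YG X))} {a N : ℕ} :
      T.SylC a g → LW l N → LW ((u, g) :: l) (a + 1 + N)

/-- a controlled reduced word of weight `≤ N` -/
def Ctrl (N : ℕ) (w : T.RW) : Prop :=
  ∃ a N', T.SylC a w.head ∧ T.LW w.toList N' ∧ a + N' ≤ N

theorem SylC.one : T.SylC 0 1 := by
  exact ⟨⟨1, map_one _, by simp⟩, 0, by simp, Small.one T⟩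

theorem SylC.mono {a a' : ℕ} {g : H × YG X} (h : T.SylC a g) (ha : a ≤ a') : T.SylC a' g := by
  obtain ⟨⟨w, h1, h2⟩, m, h3, h4⟩ := h
  exact ⟨⟨w, h1, h2.trans ha⟩, m, h3.trans ha, h4⟩

/-- `Small.mul`, `FreeGroup.norm_mul_le` -/
theorem SylC.mul {a a' : ℕ} {g g' : H × YG X} (h : T.SylC a g) (h' : T.SylC a' g') :
    T.SylC (a + a') (g * g') := by
  obtain ⟨⟨w, h1, h2⟩, m, h3, h4⟩ := h
  obtain ⟨⟨w', h1', h2'⟩, m', h3', h4'⟩ := h'
  refine ⟨⟨w * w', ?_, (FreeGroup.norm_mul_le w w').trans (by omega)⟩, m + m', by omega, ?_⟩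
  · rw [map_mul, h1, h1']; rfl
  · exact Small.mul T h4 h4'

/-- a hardware generator or its inverse -/
theorem SylC.gen (i : Fin n) (b : Bool) : T.SylC 1 (B.φ (FreeGroup.mk [(i, b)]), 1) := by
  exact ⟨⟨FreeGroup.mk [(i, b)], rfl, FreeGroup.norm_mk_le⟩, 0, by simp, Small.one T⟩

/-- the pinch `(p, π p) ↦ (p,1)` keeps the control -/
theorem SylC.pinch_neg {a : ℕ} {h : H} {y : YG X} (hc : T.SylC a (h, y)) : T.SylC a (h, 1) := by
  exact ⟨hc.1, 0, by simp, Small.one T⟩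

end

variable (hw : Hardware H n) (T : Tower hw.toHwBase X)

/-- (H4) in `Y`:  `hw.h4` + `small_of_smallF` -/
theorem small_piY {a : ℕ} {p : hw.P} (h : hw.HLen a (p : H)) :
    ∃ m, 16 * m ≤ a ∧ T.Small m (piY hw.toHwBase T.μ p) := by
  obtain ⟨w, h1, h2⟩ := h
  have hwP : hw.φ w ∈ hw.P := by rw [h1]; exact p.2
  obtain ⟨m, hm, hs⟩ := hw.h4 w hwP
  have hp : (⟨hw.φ w, hwP⟩ : hw.P) = p := Subtype.ext h1
  rw [hp] at hs
  exact ⟨m, hm.trans h2, small_of_smallF T hs⟩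

/-- (H4): the pinch `(p,1) ↦ (p, π p)` keeps the control -/
theorem SylC.pinch_pos {a : ℕ} {p : hw.P} (h : T.SylC a ((p : H), 1)) :
    T.SylC a ((p : H), piY hw.toHwBase T.μ p) := by
  exact ⟨h.1, small_piY hw T h.1⟩

/-- left multiplication by a hardware letter (`eval_bas_mul`, `SylC.gen`, `SylC.mul`, `μ_some`) -/
theorem ctrl_step_h {N : ℕ} {w : T.RW} (hc : T.Ctrl N w) (i : Fin n) (b : Bool) :
    ∃ w' : T.RW, T.Ctrl (N + 1) w' ∧ T.eval w' = T.val [(some i, b)] * T.eval w := by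
  obtain ⟨a, N', h1, h2, h3⟩ := hc
  obtain ⟨w', e1, e2, e3⟩ := T.eval_bas_mul (hw.φ (FreeGroup.mk [(i, b)]), 1) w
  refine ⟨w', ⟨1 + a, N', ?_, ?_, by omega⟩, ?_⟩
  · rw [e1]; exact (SylC.gen T i b).mul T h1
  · rw [e2]; exact h2
  · rw [e3, ← T.val_incW]; rfl

/-- Left multiplication by `ρ^{±1}`: at most one pinch.  Use `eval_rho_nopinch` (new head `1`, weight `0 + (a + 1 + N')`), or
`eval_rho_pinch_pos/neg` (new head `φ^{±}(g₀) g₁`, weight `(a + a₁) + N''`). -/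
theorem ctrl_step_rho {N : ℕ} {w : T.RW} (hc : T.Ctrl N w) (b : Bool) :
    ∃ w' : T.RW, T.Ctrl (N + 1) w' ∧ T.eval w' = T.val [(none, b)] * T.eval w := by
  obtain ⟨a, N', h1, h2, h3⟩ := hc
  have key : ∀ u : ℤˣ, (∀ g l, w.toList = (-u, g) :: l →
      w.head ∉ toSubgroup (AM hw.toHwBase (X := X)) (BM hw.toHwBase T.μ) u) →
      ∃ w' : T.RW, T.Ctrl (N + 1) w' ∧ T.eval w' = T.rho ^ (u : ℤ) * T.eval w := by
    intro u hu
    obtain ⟨w', e1, e2, e3⟩ := T.eval_rho_nopinch u w hu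
    refine ⟨w', ⟨0, a + 1 + N', ?_, ?_, by omega⟩, e3⟩
    · rw [e1]; exact SylC.one T
    · rw [e2]; exact LW.cons h1 h2
  cases b
  · -- `ρ⁻¹`
    have hv : T.val [(none, false)] = T.rho⁻¹ := T.val_rhoW'
    rw [hv]
    by_cases hu : ∀ g l, w.toList = (-(-1 : ℤˣ), g) :: l →
        w.head ∉ toSubgroup (AM hw.toHwBase (X := X)) (BM hw.toHwBase T.μ) (-1)
    · obtain ⟨w', c1, c2⟩ := key (-1) hu
      refine ⟨w', c1, ?_⟩
      rw [c2]; simp
    · simp only [not_forall, not_not] at hu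
      obtain ⟨g, l, hl, hm⟩ := hu
      rw [neg_neg] at hl
      rw [toSubgroup_neg_one, mem_BM_iff] at hm
      obtain ⟨hp, hy⟩ := hm
      have hh : w.head = (((⟨w.head.1, hp⟩ : hw.P) : H), piY hw.toHwBase T.μ ⟨w.head.1, hp⟩) :=
        Prod.ext rfl hy
      obtain ⟨w', e1, e2, e3⟩ := T.eval_rho_pinch_neg w ⟨w.head.1, hp⟩ g l hh hl
      rw [hl] at h2
      cases h2 with
      | @cons _ _ _ a₁ N'' hg hl' =>
        refine ⟨w', ⟨a + a₁, N'', ?_, ?_, by omega⟩, e3⟩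
        · rw [e1]
          refine SylC.mul T ?_ hg
          rw [hh] at h1
          exact SylC.pinch_neg T h1
        · rw [e2]; exact hl'
  · -- `ρ`
    have hv : T.val [(none, true)] = T.rho := T.val_rhoW
    rw [hv]
    by_cases hu : ∀ g l, w.toList = (-(1 : ℤˣ), g) :: l →
        w.head ∉ toSubgroup (AM hw.toHwBase (X := X)) (BM hw.toHwBase T.μ) 1
    · obtain ⟨w', c1, c2⟩ := key 1 hu
      refine ⟨w', c1, ?_⟩
      rw [c2]; simp
    · simp only [not_forall, not_not] at hu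
      obtain ⟨g, l, hl, hm⟩ := hu
      rw [toSubgroup_one, mem_AM_iff] at hm
      obtain ⟨hp, hy⟩ := hm
      have hh : w.head = (((⟨w.head.1, hp⟩ : hw.P) : H), 1) := Prod.ext rfl hy
      obtain ⟨w', e1, e2, e3⟩ := T.eval_rho_pinch_pos w ⟨w.head.1, hp⟩ g l hh hl
      rw [hl] at h2
      cases h2 with
      | @cons _ _ _ a₁ N'' hg hl' =>
        refine ⟨w', ⟨a + a₁, N'', ?_, ?_, by omega⟩, e3⟩
        · rw [e1]
          refine SylC.mul T ?_ hg
          rw [hh] at h1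
          exact SylC.pinch_pos hw T h1
        · rw [e2]; exact hl'

/-- induction on the word -/
theorem ctrl_word (w : WX n) : ∃ w' : T.RW, T.Ctrl w.length w' ∧ T.eval w' = T.val w := by
  induction w with
  | nil =>
    refine ⟨⟨1, [], List.isChain_nil⟩, ⟨0, 0, SylC.one T, LW.nil, by simp⟩, ?_⟩
    rw [T.val_nil]; simp [eval, evalL]
  | cons x w ih =>
    obtain ⟨w₀, c0, e0⟩ := ih
    have hv : T.val (x :: w) = T.val [x] * T.val w := by
      rw [← T.val_append]; rfl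
    rw [hv, ← e0, List.length_cons]
    rcases x with ⟨z, b⟩
    cases z with
    | none => exact ctrl_step_rho hw T c0 b
    | some i => exact ctrl_step_h hw T c0 i b

/-- **Existence of controlled reduced forms** (`ctrl_word` for `FreeGroup.toWord`; `FreeGroup.norm` is the length of `toWord`). -/
theorem ctrl_exists {N : ℕ} {x : X} (hx : T.Len N x) :
    ∃ w : T.RW, T.Ctrl N w ∧ T.eval w = x := by
  obtain ⟨f, h1, h2⟩ := hx
  obtain ⟨w, ⟨a, N', c1, c2, c3⟩, e⟩ := ctrl_word hw T f.toWord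
  refine ⟨w, ⟨a, N', c1, c2, c3.trans h2⟩, ?_⟩
  rw [e, val, FreeGroup.mk_toWord, h1]

end Tower

end Claimed.Agent.R152.CT
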