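import Mathlib

/-!
# Row 152, module CT (top level of module C), file 1: alphabets, the hardware base data, the words
`θ_F`, `j_F`, the finite relator set and the group `X`.

Paper text: `git show origin/helper283:docs/R152_CT.md`.  Architect: helper283.

CONVENTIONS (mirror image of msg 18622, adapted to Mathlib's `HNNExtension`):
* `Z n = Option (Fin n)` = generators of `X`; `none` is the stable letter `ρ`, `some i` the i-th hardware generator;
* `ZJ n = Option (Z n)` = label alphabet; `none` is `j`, `some z` is `θ(z)`;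
* relation of the stable letter: `ρ (p,1) ρ⁻¹ = (p, π p)` for `p ∈ P`;
  hence `θ(z) = ā_z⁻¹ ρ ā_z ρ⁻¹` and `j = t_q⁻¹ ρ t_q ρ⁻¹`;
* WORDS are lists of signed letters (`WH n`, `WX n`), evaluated by `FreeGroup.mk`.  Everything that has to be recursively
  enumerable (evidence sets, names) is a set of WORDS.
-/

namespace Claimed.Agent.R152.CT

universe u

/-- generators of `X` -/
abbrev Z (n : ℕ) := Option (Fin n)
/-- labels -/
abbrev ZJ (n : ℕ) := Option (Z n)
/-- the free group on the hardware generators -/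
abbrev FH (n : ℕ) := FreeGroup (Fin n)
/-- the free group on the generators of `X` -/
abbrev FX (n : ℕ) := FreeGroup (Z n)
/-- the free group on the labels -/
abbrev FJ (n : ℕ) := FreeGroup (ZJ n)
/-- hardware words -/
abbrev WH (n : ℕ) := List (Fin n × Bool)
/-- `X`-words -/
abbrev WX (n : ℕ) := List (Z n × Bool)

/-- hardware elements as `X`-elements (free groups) -/
def incH (n : ℕ) : FH n →* FX n := FreeGroup.map some
/-- `X`-elements as label elements (free groups) -/
def incJ (n : ℕ) : FX n →* FJ n := FreeGroup.map some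
/-- hardware words as `X`-words -/
def incW {n : ℕ} (w : WH n) : WX n := w.map fun p => (some p.1, p.2)
/-- the label `j` -/
def Jl (n : ℕ) : FJ n := FreeGroup.of none
/-- the letter `ρ` -/
def rhoF (n : ℕ) : FX n := FreeGroup.of none
/-- the word `ρ` -/
def rhoW (n : ℕ) : WX n := [(none, true)]
/-- the word `ρ⁻¹` -/
def rhoW' (n : ℕ) : WX n := [(none, false)]

theorem mk_incW {n : ℕ} (w : WH n) : FreeGroup.mk (incW w) = incH n (FreeGroup.mk w) := rfl

theorem mk_rhoW (n : ℕ) : FreeGroup.mk (rhoW n) = rhoF n := rfl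

theorem mk_rhoW' (n : ℕ) : FreeGroup.mk (rhoW' n) = (rhoF n)⁻¹ := rfl

/-- `SmallF m e`:  `e = (∏ lᵢ⁻¹ j^{±1} lᵢ) · w` with `|lᵢ| ≤ m`, `|w| ≤ m`.  (In the free group on the labels `j⁻¹ ≠ j`, so both signs are allowed.) -/
def SmallF {n : ℕ} (m : ℕ) (e : FJ n) : Prop :=
  ∃ (ls : List (FX n × Bool)) (w : FX n),
    e = (ls.map fun l => (incJ n l.1)⁻¹ * (if l.2 then Jl n else (Jl n)⁻¹) * incJ n l.1).prod *
      incJ n w ∧
    (∀ l ∈ ls, l.1.norm ≤ m) ∧ w.norm ≤ m

/-- The DATA of the hardware (no properties that mention the names).  `n` = number of generators of `H`. -/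
structure HwBase (H : Type u) [Group H] (n : ℕ) where
  /-- the marking -/
  φ : FH n →* H
  φ_surj : Function.Surjective φ
  /-- finite set of defining relators -/
  R : Set (FH n)
  R_fin : R.Finite
  R_ker : Subgroup.normalClosure R = φ.ker
  K : Subgroup H
  K_fg : K.FG
  P : Subgroup H
  /-- words for a finite generating set of `P` -/
  SP : List (WH n)
  P_eq : P = Subgroup.closure {h | ∃ s ∈ SP, h = φ (FreeGroup.mk s)}
  /-- the label homomorphism -/
  π₀ : P →* FJ n
  /-- word of `t_q` -/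
  tW : WH n
  tW_mem : φ (FreeGroup.mk tW) ∈ P
  π₀_t : π₀ ⟨φ (FreeGroup.mk tW), tW_mem⟩ = Jl n
  /-- word of the block `ā_z` -/
  aW : Z n → WH n
  aW_mem : ∀ z, φ (FreeGroup.mk (aW z)) ∈ P
  π₀_a : ∀ z, π₀ ⟨φ (FreeGroup.mk (aW z)), aW_mem z⟩ = incJ n (FreeGroup.of z)
  /-- evidence words for `h ≠ 1` -/
  Ev1 : Set (WH n)
  /-- evidence words for `h ∉ P` -/
  EvP : Set (WH n)
  /-- evidence words for `h ∉ K` -/
  EvK : Set (WH n)
  /-- evidence words for `h ∉ K P` -/
  EvKP : Set (WH n)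

variable {H : Type u} [Group H] {n : ℕ} (B : HwBase H n)

namespace HwBase

theorem mem_P_of_mem_SP {s : WH n} (hs : s ∈ B.SP) : B.φ (FreeGroup.mk s) ∈ B.P := by
  rw [B.P_eq]; exact Subgroup.subset_closure ⟨s, hs, rfl⟩

/-- the word `ā_z⁻¹ ρ ā_z ρ⁻¹` -/
def thWd (z : Z n) : WX n :=
  FreeGroup.invRev (incW (B.aW z)) ++ rhoW n ++ incW (B.aW z) ++ rhoW' n

/-- the substitution `θ` on signed letters -/
def thL : Z n × Bool → WX n
  | (z, true) => B.thWd z
  | (z, false) => FreeGroup.invRev (B.thWd z)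

/-- the word `t_q⁻¹ ρ t_q ρ⁻¹` -/
def jW : WX n :=
  FreeGroup.invRev (incW B.tW) ++ rhoW n ++ incW B.tW ++ rhoW' n

/-- the element `θ_F(z) = ā_z⁻¹ ρ ā_z ρ⁻¹` of the free group -/
def thW (z : Z n) : FX n := FreeGroup.mk (B.thWd z)

/-- the endomorphism `θ_F` of the free group -/
def thF : FX n →* FX n := FreeGroup.lift B.thW

/-- the element `j_F = t_q⁻¹ ρ t_q ρ⁻¹` of the free group -/
def jF : FX n := FreeGroup.mk B.jW

theorem thW_eq (z : Z n) : B.thW z =
    (incH n (FreeGroup.mk (B.aW z)))⁻¹ * rhoF n * incH n (FreeGroup.mk (B.aW z)) * (rhoF n)⁻¹ := by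
  simp only [thW, thWd, ← FreeGroup.mul_mk, ← FreeGroup.inv_mk, mk_incW, mk_rhoW, mk_rhoW']

theorem jF_eq : B.jF =
    (incH n (FreeGroup.mk B.tW))⁻¹ * rhoF n * incH n (FreeGroup.mk B.tW) * (rhoF n)⁻¹ := by
  simp only [jF, jW, ← FreeGroup.mul_mk, ← FreeGroup.inv_mk, mk_incW, mk_rhoW, mk_rhoW']

/-- the substitution on words computes `θ_F` -/
theorem mk_flatMap_thL (w : WX n) : FreeGroup.mk (w.flatMap B.thL) = B.thF (FreeGroup.mk w) := by
  induction w with
  | nil => simp [← FreeGroup.one_eq_mk]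
  | cons a w ih =>
    have h1 : FreeGroup.mk (a :: w) = FreeGroup.mk [a] * FreeGroup.mk w := by
      rw [FreeGroup.mul_mk]; rfl
    rw [List.flatMap_cons, ← FreeGroup.mul_mk, ih, h1, map_mul]
    congr 1
    rcases a with ⟨z, b⟩
    cases b
    · simp [thL, thF, thW, FreeGroup.lift_mk, FreeGroup.inv_mk]
    · simp [thL, thF, thW, FreeGroup.lift_mk]

/-- label elements as `X`-elements: `j ↦ j_F`, `z ↦ θ_F(z)` -/
def labF : FJ n →* FX n :=
  FreeGroup.lift fun o => match o with
    | none => B.jF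
    | some z => B.thW z

/-- The finite set of relators. -/
def Pfin : Set (FX n) :=
  (incH n '' B.R) ∪
  {r | ∃ (i : Fin n) (z : Z n), r = incH n (FreeGroup.of i) * B.thW z * (incH n (FreeGroup.of i))⁻¹ * (B.thW z)⁻¹} ∪
  {r | ∃ i : Fin n, r = incH n (FreeGroup.of i) * B.jF * (incH n (FreeGroup.of i))⁻¹ * B.jF⁻¹} ∪
  {B.jF * B.jF} ∪
  {r | ∃ (s : WH n) (hs : s ∈ B.SP),
    r = rhoF n * incH n (FreeGroup.mk s) * (rhoF n)⁻¹ *
      (incH n (FreeGroup.mk s) * B.labF (B.π₀ ⟨B.φ (FreeGroup.mk s), B.mem_P_of_mem_SP hs⟩))⁻¹}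

/-- all relators of `X`: the `θ_F`-iterates of the finite set -/
def Rall : Set (FX n) := ⋃ k : ℕ, (B.thF^[k]) '' B.Pfin

/-- The group `X = X*`. -/
abbrev XG : Type := PresentedGroup B.Rall

/-- the marking of `X` -/
def mkX : FX n →* B.XG := PresentedGroup.mk B.Rall

end HwBase

end Claimed.Agent.R152.CT
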