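import Claimed.Agent.R152.CT.TowerApi

/-!
# Row 152, module CT, file 21: `Δ = ⟨X, τ | τ x τ⁻¹ = θ(x)⟩` (ascending HNN extension), generic part.
-/

namespace Claimed.Agent.R152.CT

open Monoid.Coprod

universe u

variable {H : Type u} [Group H] {n : ℕ} {B : HwBase H n} {X : Type} [Group X]

namespace Tower

variable (T : Tower B X)

/-- `x ↦ θ(x)` as an isomorphism `⊤ ≃ θ(X)` -/
noncomputable def thEquiv : (⊤ : Subgroup X) ≃* T.θ.range :=
  Subgroup.topEquiv.trans (MonoidHom.ofInjective T.θ_injective)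

/-- `Δ` -/
abbrev Delta := HNNExtension X ⊤ T.θ.range T.thEquiv

/-- `X → Δ` -/
noncomputable def ofD : X →* T.Delta := HNNExtension.of

/-- the stable letter `τ` -/
noncomputable def tau : T.Delta := HNNExtension.t

theorem ofD_injective : Function.Injective T.ofD := HNNExtension.of_injective _

/-- `τ x τ⁻¹ = θ(x)`  (`HNNExtension.equiv_eq_conj`) -/
theorem tau_conj (x : X) : T.tau * T.ofD x * T.tau⁻¹ = T.ofD (T.θ x) :=
  (HNNExtension.equiv_eq_conj (φ := T.thEquiv) (⟨x, Subgroup.mem_top x⟩ : (⊤ : Subgroup X))).symm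

/-- the degree (`HNNExtension.lift 1 (ofAdd 1)`) -/
theorem exists_deg : ∃ d : T.Delta →* Multiplicative ℤ,
    d T.tau = Multiplicative.ofAdd 1 ∧ ∀ x, d (T.ofD x) = 1 := by
  refine ⟨HNNExtension.lift 1 (Multiplicative.ofAdd 1) (fun a => by simp), ?_, fun x => ?_⟩
  · exact HNNExtension.lift_t _ _ _
  · exact HNNExtension.lift_of _ _ _ x

/-- `Δ = ⟨X, τ⟩` (`HNNExtension.induction_on`) -/
theorem delta_gen (Q : Subgroup T.Delta) (hX : T.ofD.range ≤ Q) (hτ : T.tau ∈ Q) : Q = ⊤ := by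
  refine eq_top_iff.2 fun g hg => ?_
  clear hg
  induction g using HNNExtension.induction_on with
  | of x => exact hX ⟨x, rfl⟩
  | t => exact hτ
  | mul a b ha hb => exact Q.mul_mem ha hb
  | inv a ha => exact Q.inv_mem ha

end Tower

end Claimed.Agent.R152.CT
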