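import Claimed.Agent.R152.CT.IsoB

/-!
# Row 152, module CT, file 20: the fixed point `X ≅ Φ(X)`, part C: `α` and `β` are inverse; the tower on `B.XG`.
-/

namespace Claimed.Agent.R152.CT

open Monoid.Coprod

universe u

variable {H : Type u} [Group H] {n : ℕ} (B : HwBase H n)

namespace HwBase

/-- `β ∘ α = id`: `PresentedGroup.ext` (generators `none ↦ t ↦ ρ`, `some i ↦ (h_i,1) ↦ mkX (incH (of i))`; `beX_t`, `beX_of`, `beB_apply`, `beH_φ`). -/
theorem be_al (x : B.XG) : B.beX (B.alX x) = x := by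
  have h : B.beX.comp B.alF = B.mkX := by
    apply FreeGroup.ext_hom
    intro z
    rcases z with _ | i
    · have h1 : B.alF (FreeGroup.of none) = HNNExtension.t := B.alF_rho
      rw [MonoidHom.comp_apply, h1, beX_t]
      rfl
    · have h1 : B.alF (FreeGroup.of (some i)) = HNNExtension.of (B.φ (FreeGroup.of i), 1) :=
        B.alF_incH (FreeGroup.of i)
      rw [MonoidHom.comp_apply, h1, beX_of, beB_apply, beH_φ, map_one, mul_one]
      rfl
  obtain ⟨w, rfl⟩ := B.mkX_surjective x
  rw [alX_mk]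
  exact DFunLike.congr_fun h w

/-- `α(β_H h) = (h,1)` (`φ_surj`, `beH_φ`, `alX_mk`, `alF_incH`) -/
theorem al_beH (h : H) : B.alX (B.beH h) = HNNExtension.of (h, 1) := by
  obtain ⟨w, rfl⟩ := B.φ_surj h
  rw [beH_φ, alX_mk, alF_incH]

/-- `α(β_Y y) = (1,y)`: `Monoid.Coprod.hom_ext`; `inl`: `mkX_surjective`, `thX_mk`, `alX_mk`, `alF_thF`; `inr`: the two elements of `C2`, `alF_jF`. -/
theorem al_beY (y : YG B.XG) : B.alX (B.beY y) = HNNExtension.of (1, y) := by
  have h : B.alX.comp B.beY =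
      (HNNExtension.of : H × YG B.XG →* Phi B B.mkX).comp (MonoidHom.inr H (YG B.XG)) := by
    apply Monoid.Coprod.hom_ext
    · refine MonoidHom.ext fun x => ?_
      obtain ⟨w, rfl⟩ := B.mkX_surjective x
      simp only [MonoidHom.comp_apply]
      rw [beY_inl, thX_mk, alX_mk, alF_thF]
      rfl
    · refine MonoidHom.ext fun c => ?_
      rcases Int.units_eq_one_or c with rfl | rfl
      · simp only [map_one]
      · simp only [MonoidHom.comp_apply]
        have h1 : (inr (-1 : C2) : YG B.XG) = jY B.XG := rfl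
        rw [h1, beY_jY, alX_mk, alF_jF]
        rfl
  exact DFunLike.congr_fun h y

/-- `α ∘ β = id`: `HNNExtension.hom_ext`, `al_beH`, `al_beY`, `alF_rho`. -/
theorem al_be (g : Phi B B.mkX) : B.alX (B.beX g) = g := by
  have h : B.alX.comp B.beX = MonoidHom.id (Phi B B.mkX) := by
    apply HNNExtension.hom_ext
    · refine MonoidHom.ext fun a => ?_
      obtain ⟨h, y⟩ := a
      simp only [MonoidHom.comp_apply, MonoidHom.id_apply]
      rw [beX_of, beB_apply, map_mul, al_beH, al_beY, ← map_mul, Prod.mk_mul_mk, mul_one, one_mul]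
    · rw [MonoidHom.comp_apply, beX_t, alX_mk, alF_rho]
      rfl
  exact DFunLike.congr_fun h g

/-- `Ψ : X ≃ Φ(X)` -/
noncomputable def PsiX : B.XG ≃* Phi B B.mkX where
  toFun := B.alX
  invFun := B.beX
  left_inv := B.be_al
  right_inv := B.al_be
  map_mul' := map_mul _

/-- **The tower on `X = B.XG`.** -/
noncomputable def tower : Tower B B.XG where
  μ := B.mkX
  μ_surj := B.mkX_surjective
  Ψ := B.PsiX
  Ψ_h w := (B.alX_mk _).trans (B.alF_incH w)
  Ψ_ρ := (B.alX_mk _).trans B.alF_rho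
  θ := B.thX
  θ_μ := B.thX_mk
  Ψ_θ x := by
    obtain ⟨w, rfl⟩ := B.mkX_surjective x
    rw [B.thX_mk]
    exact (B.alX_mk _).trans (B.alF_thF w)
  Ψ_j := (B.alX_mk _).trans B.alF_jF

end HwBase

end Claimed.Agent.R152.CT
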