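import Claimed.Agent.R152.CT.Delta
import Claimed.Agent.R152.CT.IsoC

/-!
# Row 152, module CT, file 22: `Δ` is finitely presented.

`Δ ≅ PD = ⟨Z, τ | Pfin, τ z τ⁻¹ = θ_F(z)⟩`:  in `PD` the relator `θ_F^k(r)` is `τ^k r τ^{-k} = 1`.
-/

namespace Claimed.Agent.R152.CT

open Monoid.Coprod

universe u

variable {H : Type u} [Group H] {n : ℕ} (B : HwBase H n)

/-- generators of `Δ`; `none = τ` -/
abbrev ZD (n : ℕ) := Option (Z n)

/-- `X`-elements as `Δ`-elements (free groups) -/
def incD (n : ℕ) : FX n →* FreeGroup (ZD n) := FreeGroup.map some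

/-- the letter `τ` -/
def tauF (n : ℕ) : FreeGroup (ZD n) := FreeGroup.of none

namespace HwBase

/-- the finite presentation of `Δ` -/
def RD : Set (FreeGroup (ZD n)) :=
  (incD n '' B.Pfin) ∪
  {r | ∃ z : Z n, r = tauF n * incD n (FreeGroup.of z) * (tauF n)⁻¹ * (incD n (B.thW z))⁻¹}

/-- five finite sets (`R_fin`, `Set.finite_range`-type arguments over `Fin n`, `Z n`, and the finite list `SP`) -/
theorem Pfin_finite : B.Pfin.Finite := by
  unfold Pfin
  refine Set.Finite.union (Set.Finite.union (Set.Finite.union (Set.Finite.union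
    (B.R_fin.image _) ?_) ?_) (Set.finite_singleton _)) ?_
  · refine (Set.finite_range (fun p : Fin n × Z n => incH n (FreeGroup.of p.1) * B.thW p.2 *
      (incH n (FreeGroup.of p.1))⁻¹ * (B.thW p.2)⁻¹)).subset ?_
    rintro r ⟨i, z, rfl⟩
    exact ⟨(i, z), rfl⟩
  · refine (Set.finite_range (fun i : Fin n => incH n (FreeGroup.of i) * B.jF *
      (incH n (FreeGroup.of i))⁻¹ * B.jF⁻¹)).subset ?_
    rintro r ⟨i, rfl⟩
    exact ⟨i, rfl⟩
  · haveI : Finite {s // s ∈ B.SP} := (List.finite_toSet B.SP).to_subtype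
    refine (Set.finite_range (fun s : {s // s ∈ B.SP} =>
      rhoF n * incH n (FreeGroup.mk s.1) * (rhoF n)⁻¹ *
      (incH n (FreeGroup.mk s.1) *
        B.labF (B.π₀ ⟨B.φ (FreeGroup.mk s.1), B.mem_P_of_mem_SP s.2⟩))⁻¹)).subset ?_
    rintro r ⟨s, hs, rfl⟩
    exact ⟨⟨s, hs⟩, rfl⟩

theorem RD_finite : B.RD.Finite := by
  unfold RD
  refine (B.Pfin_finite.image _).union ?_
  refine (Set.finite_range (fun z : Z n =>
    tauF n * incD n (FreeGroup.of z) * (tauF n)⁻¹ * (incD n (B.thW z))⁻¹)).subset ?_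
  rintro r ⟨z, rfl⟩
  exact ⟨z, rfl⟩

/-- the finitely presented group -/
abbrev PD : Type := PresentedGroup B.RD

/-- the marking of `PD` -/
def mkD : FreeGroup (ZD n) →* B.PD := PresentedGroup.mk B.RD

/-- in `PD`: `τ w τ⁻¹ = θ_F(w)` (hom ext on `FX n`: both sides are homomorphisms in `w`; generators: 2nd kind of relators) -/
theorem mkD_thF (w : FX n) :
    B.mkD (incD n (B.thF w)) = B.mkD (tauF n) * B.mkD (incD n w) * (B.mkD (tauF n))⁻¹ := by
  have key : (B.mkD.comp (incD n)).comp B.thF =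
      (MulAut.conj (B.mkD (tauF n))).toMonoidHom.comp (B.mkD.comp (incD n)) := by
    ext z
    simp only [MonoidHom.comp_apply, MulEquiv.coe_toMonoidHom, MulAut.conj_apply]
    have h1 : B.thF (FreeGroup.of z) = B.thW z := by simp [thF]
    rw [h1]
    have h2 : B.mkD (tauF n * incD n (FreeGroup.of z) * (tauF n)⁻¹ * (incD n (B.thW z))⁻¹) = 1 :=
      PresentedGroup.one_of_mem (Or.inr ⟨z, rfl⟩)
    rw [map_mul, map_mul, map_mul, map_inv, map_inv, mul_inv_eq_one] at h2
    exact h2.symm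
  exact DFunLike.congr_fun key w

/-- all relators of `X` die in `PD` (induction on `k`, `mkD_thF`) -/
theorem mkD_Rall {r : FX n} (hr : r ∈ B.Rall) : (B.mkD.comp (incD n)) r = 1 := by
  obtain ⟨k, r0, h0, rfl⟩ := Set.mem_iUnion.1 hr
  rw [MonoidHom.comp_apply]
  induction k with
  | zero => exact PresentedGroup.one_of_mem (Or.inl ⟨r0, h0, rfl⟩)
  | succ k ih =>
    have ih' := ih (Set.mem_iUnion.2 ⟨k, r0, h0, rfl⟩)
    rw [Function.iterate_succ_apply', mkD_thF, ih', mul_one, mul_inv_cancel]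

/-- `X → PD` -/
def xToPD : B.XG →* B.PD := B.liftX (B.mkD.comp (incD n)) (fun _ hr => B.mkD_Rall hr)

theorem xToPD_mk (w : FX n) : B.xToPD (B.mkX w) = B.mkD (incD n w) := B.liftX_mk _ _ w

/-- (`a = ⟨x, _⟩`, `x = mkX w`, `thEquiv a = θ x = mkX (thF w)`, `mkD_thF`) -/
theorem rel_tau (a : (⊤ : Subgroup B.XG)) :
    B.mkD (tauF n) * B.xToPD (a : B.XG) =
      B.xToPD ((B.tower.thEquiv a : B.tower.θ.range) : B.XG) * B.mkD (tauF n) := by
  obtain ⟨x, hx⟩ := a
  obtain ⟨w, rfl⟩ := B.mkX_surjective x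
  have h1 : ((B.tower.thEquiv ⟨B.mkX w, hx⟩ : B.tower.θ.range) : B.XG) = B.thX (B.mkX w) := rfl
  rw [h1, thX_mk, xToPD_mk, xToPD_mk, mkD_thF, inv_mul_cancel_right]

/-- `δ : Δ → PD` -/
noncomputable def deD : B.tower.Delta →* B.PD := HNNExtension.lift B.xToPD (B.mkD (tauF n)) B.rel_tau

/-- `γ` on generators -/
noncomputable def gaGen : ZD n → B.tower.Delta
  | none => B.tower.tau
  | some z => B.tower.ofD (B.mkX (FreeGroup.of z))

/-- the relators of `PD` hold in `Δ` (`lift gaGen (incD w) = ofD (mkX w)`; `mkX_eq_one`, `Pfin_subset_Rall`; `tau_conj`, `thX_mk`) -/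
theorem ga_incD (w : FX n) : FreeGroup.lift B.gaGen (incD n w) = B.tower.ofD (B.mkX w) := by
  have key : (FreeGroup.lift B.gaGen).comp (incD n) = B.tower.ofD.comp B.mkX := by
    ext z
    simp [incD, gaGen]
  exact DFunLike.congr_fun key w

theorem ga_tauF : FreeGroup.lift B.gaGen (tauF n) = B.tower.tau := by
  simp [tauF, gaGen]

theorem ga_rel (r : FreeGroup (ZD n)) (hr : r ∈ B.RD) : FreeGroup.lift B.gaGen r = 1 := by
  rcases hr with ⟨r0, h0, rfl⟩ | ⟨z, rfl⟩
  · rw [ga_incD, B.mkX_eq_one (B.Pfin_subset_Rall h0), map_one]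
  · rw [map_mul, map_mul, map_mul, map_inv, map_inv, ga_incD, ga_incD, ga_tauF,
      B.tower.tau_conj, mul_inv_eq_one]
    have h1 : B.tower.θ (B.mkX (FreeGroup.of z)) = B.thX (B.mkX (FreeGroup.of z)) := rfl
    have h2 : B.thF (FreeGroup.of z) = B.thW z := by simp [thF]
    rw [h1, thX_mk, h2]

/-- `γ : PD → Δ` -/
noncomputable def gaD : B.PD →* B.tower.Delta := PresentedGroup.toGroup B.ga_rel

/-- `PresentedGroup.ext` -/
theorem gaD_mk (w : FreeGroup (ZD n)) : B.gaD (B.mkD w) = FreeGroup.lift B.gaGen w := rfl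

theorem deD_tau : B.deD B.tower.tau = B.mkD (tauF n) := HNNExtension.lift_t _ _ _

theorem deD_ofD (x : B.XG) : B.deD (B.tower.ofD x) = B.xToPD x := HNNExtension.lift_of _ _ _ x

theorem de_ga (x : B.PD) : B.deD (B.gaD x) = x := by
  have key : B.deD.comp B.gaD = MonoidHom.id _ := by
    apply PresentedGroup.ext
    intro z
    rw [MonoidHom.comp_apply, MonoidHom.id_apply]
    have h0 : (PresentedGroup.of z : B.PD) = B.mkD (FreeGroup.of z) := rfl
    rw [h0, gaD_mk, FreeGroup.lift_apply_of]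
    cases z with
    | none => exact B.deD_tau
    | some z =>
      show B.deD (B.tower.ofD (B.mkX (FreeGroup.of z))) = _
      rw [deD_ofD, xToPD_mk]
      simp [incD]
  exact DFunLike.congr_fun key x

/-- `HNNExtension.hom_ext`, `homX_ext` -/
theorem ga_de (x : B.tower.Delta) : B.gaD (B.deD x) = x := by
  have key : B.gaD.comp B.deD = MonoidHom.id _ := by
    apply HNNExtension.hom_ext
    · apply B.homX_ext
      intro w
      show B.gaD (B.deD (B.tower.ofD (B.mkX w))) = B.tower.ofD (B.mkX w)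
      rw [deD_ofD, xToPD_mk, gaD_mk, ga_incD]
    · show B.gaD (B.deD B.tower.tau) = B.tower.tau
      rw [deD_tau, gaD_mk, ga_tauF]
  exact DFunLike.congr_fun key x

/-- `PD ≃ Δ` -/
noncomputable def equivPD : B.PD ≃* B.tower.Delta where
  toFun := B.gaD
  invFun := B.deD
  left_inv := B.de_ga
  right_inv := B.ga_de
  map_mul' := map_mul _

/-- **`Δ` is finitely presented.** -/
theorem delta_fp : Group.IsFinitelyPresented B.tower.Delta := by
  haveI : Finite B.RD := B.RD_finite.to_subtype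
  exact Group.IsFinitelyPresented.equiv B.equivPD

end HwBase

end Claimed.Agent.R152.CT
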