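import Claimed.Agent.R152.CT.Tower

/-!
# Row 152, module CT, file 18: the fixed point `X ≅ Φ(X)`, part A: `θ : X → X` and `α : X → Φ(X)` for `X = B.XG`.

`X = ⟨Z | ⋃ θ_F^k(Pfin)⟩`.  `θ` is induced by `θ_F` (which maps relators to relators).  `α` sends `ρ ↦ t`, `h_i ↦ (h_i, 1)`.
Key computation: `α_F(θ_F w) = (1, inl (mk w))`; hence the relators `θ_F^{k+1}(r)` die because `θ_F^k(r)` is a relator.
-/

namespace Claimed.Agent.R152.CT

open Monoid.Coprod

universe u

variable {H : Type u} [Group H] {n : ℕ} (B : HwBase H n)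

namespace HwBase

theorem mkX_surjective : Function.Surjective B.mkX := PresentedGroup.mk_surjective _

theorem mkX_eq_one {r : FX n} (hr : r ∈ B.Rall) : B.mkX r = 1 := PresentedGroup.one_of_mem hr

theorem Pfin_subset_Rall : B.Pfin ⊆ B.Rall := by
  intro r hr
  exact Set.mem_iUnion.2 ⟨0, r, hr, rfl⟩

theorem thF_mem_Rall {r : FX n} (hr : r ∈ B.Rall) : B.thF r ∈ B.Rall := by
  obtain ⟨k, r0, h0, rfl⟩ := Set.mem_iUnion.1 hr
  exact Set.mem_iUnion.2 ⟨k + 1, r0, h0, by rw [Function.iterate_succ_apply']⟩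

/-- homomorphisms out of `X` -/
def liftX {G : Type*} [Group G] (F : FX n →* G) (h : ∀ r ∈ B.Rall, F r = 1) : B.XG →* G :=
  PresentedGroup.toGroup (f := fun z => F (FreeGroup.of z)) (by
    intro r hr
    have : FreeGroup.lift (fun z => F (FreeGroup.of z)) = F := by
      ext z; simp
    rw [this]; exact h r hr)

theorem liftX_mk {G : Type*} [Group G] (F : FX n →* G) (h : ∀ r ∈ B.Rall, F r = 1) (w : FX n) :
    B.liftX F h (B.mkX w) = F w := by
  have : (B.liftX F h).comp B.mkX = F := by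
    ext z
    simp only [MonoidHom.comp_apply, liftX, mkX]
    exact PresentedGroup.toGroup.of (rels := B.Rall) (f := fun z => F (FreeGroup.of z)) _
  exact DFunLike.congr_fun this w

/-- two homomorphisms out of `X` that agree on the marking are equal -/
theorem homX_ext {G : Type*} [Group G] {f g : B.XG →* G} (h : ∀ w, f (B.mkX w) = g (B.mkX w)) :
    f = g := by
  ext x
  exact h (FreeGroup.of x)

/-- `θ : X → X` -/
def thX : B.XG →* B.XG :=
  B.liftX (B.mkX.comp B.thF) (fun _ hr => B.mkX_eq_one (B.thF_mem_Rall hr))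

theorem thX_mk (w : FX n) : B.thX (B.mkX w) = B.mkX (B.thF w) := B.liftX_mk _ _ w

/-- `α` on generators -/
noncomputable def alGen : Z n → Phi B B.mkX
  | none => HNNExtension.t
  | some i => HNNExtension.of (B.φ (FreeGroup.of i), 1)

/-- `α_F` -/
noncomputable def alF : FX n →* Phi B B.mkX := FreeGroup.lift B.alGen

theorem alF_rho : B.alF (rhoF n) = HNNExtension.t := by
  simp [alF, rhoF, alGen]

/-- hom ext on `FH n` -/
theorem alF_incH (w : FH n) : B.alF (incH n w) = HNNExtension.of (B.φ w, 1) := by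
  have h : (B.alF.comp (incH n)) =
      (HNNExtension.of : H × YG B.XG →* Phi B B.mkX).comp
        ((MonoidHom.inl H (YG B.XG)).comp B.φ) := by
    ext i
    simp [alF, incH, alGen]
  exact DFunLike.congr_fun h w

/-- `t (p,1) t⁻¹ = (p, π p)` in `Φ(X)` (`HNNExtension.equiv_eq_conj`, `phiM_apply`) -/
theorem t_conj (p : B.P) :
    (HNNExtension.t * HNNExtension.of ((p : H), 1) * HNNExtension.t⁻¹ : Phi B B.mkX) =
      HNNExtension.of ((p : H), piY B B.mkX p) := by
  have hp : ((p : H), (1 : YG B.XG)) ∈ AM B (X := B.XG) := (mem_AM_iff B _).2 ⟨p.2, rfl⟩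
  have h := HNNExtension.equiv_eq_conj (φ := phiM B B.mkX) ⟨_, hp⟩
  rw [phiM_apply] at h
  exact h.symm

/-- `w⁻¹ t w t⁻¹ = (1, π w)` for a word `w` of an element of `P` -/
theorem alF_comm (w : FH n) (hw : B.φ w ∈ B.P) :
    B.alF ((incH n w)⁻¹ * rhoF n * incH n w * (rhoF n)⁻¹) =
      HNNExtension.of (1, piY B B.mkX ⟨B.φ w, hw⟩) := by
  rw [map_mul, map_mul, map_mul, map_inv, map_inv, alF_incH, alF_rho]
  have h := B.t_conj ⟨B.φ w, hw⟩
  simp only at h
  rw [mul_assoc, mul_assoc, ← mul_assoc HNNExtension.t, h, ← map_inv, ← map_mul]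
  congr 1
  ext <;> simp

/-- `thW_eq`, `alF_comm`, `π₀_a`; `labY mk (incJ (of z)) = inl (mk (of z))` -/
theorem alF_thW (z : Z n) : B.alF (B.thW z) = HNNExtension.of (1, inl (B.mkX (FreeGroup.of z))) := by
  rw [thW_eq, B.alF_comm _ (B.aW_mem z)]
  simp [piY, B.π₀_a, labY, incJ]

/-- `jF_eq`, `alF_comm`, `π₀_t` -/
theorem alF_jF : B.alF B.jF = HNNExtension.of (1, jY B.XG) := by
  rw [jF_eq, B.alF_comm _ B.tW_mem]
  simp [piY, B.π₀_t, labY, Jl]

/-- hom ext on `FX n` from `alF_thW` -/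
theorem alF_thF (w : FX n) : B.alF (B.thF w) = HNNExtension.of (1, inl (B.mkX w)) := by
  have h : (B.alF.comp B.thF) =
      (HNNExtension.of : H × YG B.XG →* Phi B B.mkX).comp
        ((MonoidHom.inr H (YG B.XG)).comp ((inl : B.XG →* YG B.XG).comp B.mkX)) := by
    ext z
    simp only [MonoidHom.comp_apply, thF, FreeGroup.lift_apply_of, alF_thW, MonoidHom.inr_apply]
  exact DFunLike.congr_fun h w

/-- hom ext on `FJ n` from `alF_thW`, `alF_jF` -/
theorem alF_labF (e : FJ n) : B.alF (B.labF e) = HNNExtension.of (1, labY B.mkX e) := by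
  have h : (B.alF.comp B.labF) =
      (HNNExtension.of : H × YG B.XG →* Phi B B.mkX).comp
        ((MonoidHom.inr H (YG B.XG)).comp (labY B.mkX)) := by
    ext o
    cases o with
    | none =>
      simp only [MonoidHom.comp_apply, labF, labY, FreeGroup.lift_apply_of, alF_jF,
        MonoidHom.inr_apply]
    | some z =>
      simp only [MonoidHom.comp_apply, labF, labY, FreeGroup.lift_apply_of, alF_thW,
        MonoidHom.inr_apply]
  exact DFunLike.congr_fun h e

theorem isoA_of_eq_one {g : H × YG B.XG} (h : g = 1) :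
    (HNNExtension.of g : Phi B B.mkX) = 1 := by
  rw [h]
  exact map_one _

/-- the five kinds of relators die in `Φ(X)`: (1) `R ⊆ ker φ` (`R_ker`, `Subgroup.subset_normalClosure`); (2),(3) `(h,1)` commutes with `(1,y)`;
(4) `jY_mul_self`; (5) `t_conj` and `alF_labF`. -/
theorem alF_Pfin {r : FX n} (hr : r ∈ B.Pfin) : B.alF r = 1 := by
  rcases hr with (((hr | hr) | hr) | hr) | hr
  · obtain ⟨r0, h0, rfl⟩ := hr
    have h1 : r0 ∈ B.φ.ker := B.R_ker ▸ Subgroup.subset_normalClosure h0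
    rw [alF_incH, MonoidHom.mem_ker.1 h1]
    exact map_one _
  · obtain ⟨i, z, rfl⟩ := hr
    rw [map_mul, map_mul, map_mul, map_inv, map_inv, alF_incH, alF_thW, ← map_inv, ← map_inv,
      ← map_mul, ← map_mul, ← map_mul]
    apply B.isoA_of_eq_one
    ext <;> simp
  · obtain ⟨i, rfl⟩ := hr
    rw [map_mul, map_mul, map_mul, map_inv, map_inv, alF_incH, alF_jF, ← map_inv, ← map_inv,
      ← map_mul, ← map_mul, ← map_mul]
    apply B.isoA_of_eq_one
    ext <;> simp
  · rw [Set.mem_singleton_iff.1 hr, map_mul, alF_jF, ← map_mul]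
    apply B.isoA_of_eq_one
    ext
    · simp
    · simp [jY_mul_self]
  · obtain ⟨s, hs, rfl⟩ := hr
    rw [map_mul, map_mul, map_mul, map_inv, map_inv, map_mul, alF_incH, alF_rho, alF_labF]
    have h := B.t_conj ⟨B.φ (FreeGroup.mk s), B.mem_P_of_mem_SP hs⟩
    simp only at h
    rw [h, ← map_mul, ← map_inv, ← map_mul]
    apply B.isoA_of_eq_one
    ext <;> simp [piY]

theorem alF_Rall {r : FX n} (hr : r ∈ B.Rall) : B.alF r = 1 := by
  obtain ⟨k, r0, h0, rfl⟩ := Set.mem_iUnion.1 hr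
  cases k with
  | zero => exact B.alF_Pfin h0
  | succ k =>
    rw [Function.iterate_succ_apply', alF_thF,
      B.mkX_eq_one (Set.mem_iUnion.2 ⟨k, r0, h0, rfl⟩), map_one]
    exact map_one _

/-- `α : X → Φ(X)` -/
noncomputable def alX : B.XG →* Phi B B.mkX := B.liftX B.alF (fun _ hr => B.alF_Rall hr)

theorem alX_mk (w : FX n) : B.alX (B.mkX w) = B.alF w := B.liftX_mk _ _ w

end HwBase

end Claimed.Agent.R152.CT
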