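import Claimed.Agent.R152.CT.IsoA

/-!
# Row 152, module CT, file 19: the fixed point `X ≅ Φ(X)`, part B: `β : Φ(X) → X`.

`β(h,1) = ` the hardware word of `h` read in `X`; `β(1, inl x) = θ(x)`; `β(1, j) = j_F`; `β(t) = ρ`.
-/

namespace Claimed.Agent.R152.CT

open Monoid.Coprod

universe u

variable {H : Type u} [Group H] {n : ℕ} (B : HwBase H n)

namespace HwBase

/-- `ker φ = ⟨⟨R⟩⟩` dies in `X` (`R_ker`, `Subgroup.normalClosure_le_normal` for the kernel of `mkX ∘ incH`, first kind of relators). -/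
theorem ker_le (w : FH n) (hw : w ∈ B.φ.ker) : (B.mkX.comp (incH n)) w = 1 := by
  rw [← B.R_ker] at hw
  have h1 : Subgroup.normalClosure B.R ≤ (B.mkX.comp (incH n)).ker := by
    apply Subgroup.normalClosure_le_normal
    intro r hr
    rw [SetLike.mem_coe, MonoidHom.mem_ker, MonoidHom.comp_apply]
    apply B.mkX_eq_one
    apply B.Pfin_subset_Rall
    exact Or.inl (Or.inl (Or.inl (Or.inl ⟨r, hr, rfl⟩)))
  exact h1 hw

/-- `β_H : H → X` -/
noncomputable def beH : H →* B.XG :=
  (QuotientGroup.lift B.φ.ker (B.mkX.comp (incH n)) B.ker_le).comp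
    (QuotientGroup.quotientKerEquivOfSurjective B.φ B.φ_surj).symm.toMonoidHom

theorem beH_φ (w : FH n) : B.beH (B.φ w) = B.mkX (incH n w) := by
  have h1 : (QuotientGroup.quotientKerEquivOfSurjective B.φ B.φ_surj).symm (B.φ w) =
      (w : FH n ⧸ B.φ.ker) := by
    rw [MulEquiv.symm_apply_eq]
    rfl
  simp only [beH, MonoidHom.comp_apply, MulEquiv.coe_toMonoidHom, h1]
  rfl

theorem mkX_jF_mul_self : B.mkX B.jF * B.mkX B.jF = 1 := by
  rw [← map_mul]
  apply B.mkX_eq_one
  apply B.Pfin_subset_Rall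
  exact Or.inl (Or.inr rfl)

/-- `β_Y : Y → X` -/
noncomputable def beY : YG B.XG →* B.XG :=
  Monoid.Coprod.lift B.thX (invHom (B.mkX B.jF) B.mkX_jF_mul_self)

theorem beY_inl (x : B.XG) : B.beY (inl x) = B.thX x := by
  simp [beY]

theorem beY_jY : B.beY (jY B.XG) = B.mkX B.jF := by
  simp [beY, jY, invHom_neg_one]

/-- hom ext on `FJ n` -/
theorem beY_labY (e : FJ n) : B.beY (labY B.mkX e) = B.mkX (B.labF e) := by
  have h1 : B.beY.comp (labY B.mkX) = B.mkX.comp B.labF := by
    ext o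
    rcases o with _ | z
    · simp [labY, labF, beY_jY]
    · simp [labY, labF, beY_inl, thX_mk, thF]
  exact DFunLike.congr_fun h1 e

/-- generators commute: relators of the 2nd kind -/
theorem comm_gen_th (i : Fin n) (z : Z n) :
    Commute (B.mkX (incH n (FreeGroup.of i))) (B.mkX (B.thW z)) := by
  have h : B.mkX (incH n (FreeGroup.of i) * B.thW z * (incH n (FreeGroup.of i))⁻¹ * (B.thW z)⁻¹) = 1 := by
    apply B.mkX_eq_one
    apply B.Pfin_subset_Rall
    exact Or.inl (Or.inl (Or.inl (Or.inr ⟨i, z, rfl⟩)))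
  simp only [map_mul, map_inv] at h
  exact mul_inv_eq_iff_eq_mul.1 (mul_inv_eq_one.1 h)

/-- generators commute: relators of the 3rd kind -/
theorem comm_gen_j (i : Fin n) : Commute (B.mkX (incH n (FreeGroup.of i))) (B.mkX B.jF) := by
  have h : B.mkX (incH n (FreeGroup.of i) * B.jF * (incH n (FreeGroup.of i))⁻¹ * B.jF⁻¹) = 1 := by
    apply B.mkX_eq_one
    apply B.Pfin_subset_Rall
    exact Or.inl (Or.inl (Or.inr ⟨i, rfl⟩))
  simp only [map_mul, map_inv] at h
  exact mul_inv_eq_iff_eq_mul.1 (mul_inv_eq_one.1 h)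

theorem beH_comm_beY_auxH (c : B.XG) (hc : ∀ i, Commute (B.mkX (incH n (FreeGroup.of i))) c)
    (w : FH n) : Commute (B.mkX (incH n w)) c := by
  induction w using FreeGroup.induction_on with
  | C1 => simp
  | of i => exact hc i
  | inv_of i h => simpa using h.inv_left
  | mul a b ha hb => simpa using ha.mul_left hb

theorem beH_comm_beY_auxX (a : B.XG) (ha : ∀ z, Commute a (B.mkX (B.thW z))) (v : FX n) :
    Commute a (B.mkX (B.thF v)) := by
  induction v using FreeGroup.induction_on with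
  | C1 => simp
  | of z => simpa [thF] using ha z
  | inv_of z h => simpa using h.inv_right
  | mul a b ha hb => simpa using ha.mul_right hb

/-- `β_H(H)` commutes with `β_Y(Y)`.  The centraliser of `{mkX (thW z)} ∪ {mkX jF}` is a subgroup containing all `mkX (incH (of i))`, hence
`β_H(H)` (`φ_surj`, `beH_φ`, `FreeGroup.induction_on`); the centraliser of `β_H(H)` contains `thX (mkX (of z)) = mkX (thW z)`, hence `thX X`, and `mkX jF`;
finish with `Monoid.Coprod.induction_on` (or `closure_range_inl_union_inr`). -/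
theorem beH_comm_beY (h : H) (y : YG B.XG) : Commute (B.beH h) (B.beY y) := by
  obtain ⟨w, rfl⟩ := B.φ_surj h
  rw [beH_φ]
  induction y using Monoid.Coprod.induction_on with
  | inl x =>
    obtain ⟨v, rfl⟩ := B.mkX_surjective x
    rw [beY_inl, thX_mk]
    exact B.beH_comm_beY_auxX _ (fun z => B.beH_comm_beY_auxH _ (fun i => B.comm_gen_th i z) w) v
  | inr u =>
    rcases Int.units_eq_one_or u with rfl | rfl
    · simp
    · have h1 : B.beY (inr (-1)) = B.mkX B.jF := B.beY_jY
      rw [h1]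
      exact B.beH_comm_beY_auxH _ (fun i => B.comm_gen_j i) w
  | mul a b ha hb => simpa using ha.mul_right hb

/-- `β` on the base -/
noncomputable def beB : H × YG B.XG →* B.XG := MonoidHom.noncommCoprod B.beH B.beY B.beH_comm_beY

theorem beB_apply (h : H) (y : YG B.XG) : B.beB (h, y) = B.beH h * B.beY y := rfl

/-- the relation of the stable letter holds in `X`.  `Subgroup.closure_induction` on `P = closure {φ (mk s) | s ∈ SP}` (work with the subgroup
`{h ∈ P | ...}`); generators: relators of the 5th kind and `beY_labY`. -/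
theorem rel_rho (p : B.P) :
    B.mkX (rhoF n) * B.beH (p : H) = B.beH (p : H) * B.beY (piY B B.mkX p) * B.mkX (rhoF n) := by
  have key : ∀ (h : H) (_ : h ∈ Subgroup.closure {h | ∃ s ∈ B.SP, h = B.φ (FreeGroup.mk s)})
      (hp : h ∈ B.P), B.mkX (rhoF n) * B.beH h * (B.mkX (rhoF n))⁻¹ =
        B.beB (iB B B.mkX ⟨h, hp⟩) := by
    intro h hh
    induction hh using Subgroup.closure_induction with
    | mem x hx =>
      obtain ⟨s, hs, rfl⟩ := hx
      intro hp
      have h1 : B.mkX (rhoF n * incH n (FreeGroup.mk s) * (rhoF n)⁻¹ *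
          (incH n (FreeGroup.mk s) *
            B.labF (B.π₀ ⟨B.φ (FreeGroup.mk s), B.mem_P_of_mem_SP hs⟩))⁻¹) = 1 := by
        apply B.mkX_eq_one
        apply B.Pfin_subset_Rall
        exact Or.inr ⟨s, hs, rfl⟩
      rw [map_mul, map_inv, mul_inv_eq_one] at h1
      simp only [map_mul, map_inv] at h1
      rw [beH_φ, h1]
      show _ = B.beH (B.φ (FreeGroup.mk s)) * B.beY (labY B.mkX (B.π₀ ⟨B.φ (FreeGroup.mk s), hp⟩))
      rw [beH_φ, beY_labY]
    | one =>
      intro hp
      have h1 : (⟨1, hp⟩ : B.P) = 1 := rfl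
      rw [h1, map_one, map_one, map_one]
      simp
    | mul x y hx hy ihx ihy =>
      intro hp
      have hxP : x ∈ B.P := by rw [B.P_eq]; exact hx
      have hyP : y ∈ B.P := by rw [B.P_eq]; exact hy
      have h1 : (⟨x * y, hp⟩ : B.P) = ⟨x, hxP⟩ * ⟨y, hyP⟩ := rfl
      rw [h1, map_mul, map_mul, map_mul, ← ihx hxP, ← ihy hyP]
      group
    | inv x hx ihx =>
      intro hp
      have hxP : x ∈ B.P := by rw [B.P_eq]; exact hx
      have h1 : (⟨x⁻¹, hp⟩ : B.P) = (⟨x, hxP⟩ : B.P)⁻¹ := rfl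
      rw [h1, map_inv, map_inv, map_inv, ← ihx hxP]
      group
  have h2 := key (p : H) (by rw [← B.P_eq]; exact p.2) p.2
  rw [mul_inv_eq_iff_eq_mul] at h2
  exact h2

/-- (`a = (p,1)`, `phiM_apply`, `rel_rho`) -/
theorem rel_lift (a : AM B (X := B.XG)) :
    B.mkX (rhoF n) * B.beB (a : H × YG B.XG) =
      B.beB ((phiM B B.mkX a : BM B B.mkX) : H × YG B.XG) * B.mkX (rhoF n) := by
  obtain ⟨⟨h, y⟩, ha⟩ := a
  obtain ⟨hp, rfl⟩ := (mem_AM_iff B _).1 ha
  have h1 := phiM_apply B B.mkX ⟨h, hp⟩ ha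
  rw [h1, beB_apply, beB_apply, map_one, mul_one]
  exact B.rel_rho ⟨h, hp⟩

/-- `β : Φ(X) → X` -/
noncomputable def beX : Phi B B.mkX →* B.XG := HNNExtension.lift B.beB (B.mkX (rhoF n)) B.rel_lift

theorem beX_t : B.beX HNNExtension.t = B.mkX (rhoF n) := HNNExtension.lift_t _ _ _

theorem beX_of (g : H × YG B.XG) : B.beX (HNNExtension.of g) = B.beB g := HNNExtension.lift_of _ _ _ g

end HwBase

end Claimed.Agent.R152.CT
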