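import Claimed.Agent.R152.CT.Sound
import Claimed.Agent.R152.CT.LDef
import Claimed.Agent.R152.CT.Act

/-!
# Row 152, module CT, file 11: SOUNDNESS: no name of sort `nl` lies in `L`; properties (i), (ii), (v) of `L`.

Induction on the approximations `L_k`.  Step: if no name lies in `Λ` then `(K, Stab_Y(o))` (`o ∈ X/Λ ⊔ {q}`) is admissible
(the labels of `K ∩ P` are products of `θ(ν) j θ(ν)⁻¹`, `ν` a name, which fix `o`), and `⟨S0, θ(Λ)⟩ ≤ ⟨K × Stab(o), ρ⟩`.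
-/

namespace Claimed.Agent.R152.CT

open Monoid.Coprod HNNExtension

universe u

variable {H : Type u} [Group H] {n : ℕ} {X : Type} [Group X]

theorem labY_incJ (mk : FX n →* X) (w : FX n) : labY mk (incJ n w) = inl (mk w) := by
  have : (labY mk).comp (incJ n) = (inl : X →* YG X).comp mk := by
    ext z
    simp [labY, incJ]
  exact DFunLike.congr_fun this w

theorem labY_Jl (mk : FX n →* X) : labY mk (Jl n) = jY X := by
  simp [labY, Jl]

theorem jY_ne_one : jY X ≠ 1 := by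
  intro e
  have h : (Monoid.Coprod.inr (-1 : C2) : YG X) = Monoid.Coprod.inr 1 := by
    rw [map_one]; exact e
  have := Monoid.Coprod.inr_injective h
  exact absurd this (by decide)

namespace Tower

variable (hw : Hardware H n) (T : Tower hw.toHwBase X)

theorem adm_bot : T.Adm ⊥ ⊥ where
  le := bot_le
  compat p hp := by
    have : p = 1 := Subtype.ext (Subgroup.mem_bot.1 hp)
    rw [this, map_one]; exact Subgroup.one_mem _
  j e := jY_ne_one (Subgroup.mem_bot.1 e)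
  θ x hx := by
    have h1 : (inl x : YG X) = inl 1 := by rw [map_one]; exact Subgroup.mem_bot.1 hx
    rw [Monoid.Coprod.inl_injective h1]
    exact Subgroup.one_mem _

/-- names are `≠ 1` -/
theorem nl_ne_one {w : WX n} (hd : hw.D .nl w) : T.val w ≠ 1 :=
  fun e => T.sound hw ⊥ ⊥ T.adm_bot hd (e ▸ Subgroup.one_mem _)

/-- **Soundness of the sort `n1`.** -/
theorem sound1 {w : WX n} (hd : hw.D .n1 w) : T.val w ≠ 1 :=
  T.sound hw ⊥ ⊥ T.adm_bot hd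

/-- the labels of `K ∩ P` fix `o`.  (`hw.accept`, `Subgroup.closure_induction`, `labY_incJ`, `labY_Jl`, `conj_inl_mem_Ahat`.) -/
theorem piY_mem_Ahat {Λ : Subgroup X} (hΛ : ∀ w, hw.D .nl w → T.val w ∉ Λ) (p : hw.P)
    (hp : (p : H) ∈ hw.K) : piY hw.toHwBase T.μ p ∈ Ahat Λ := by
  have h1 : hw.π₀ p ∈ Subgroup.map hw.π₀ (hw.K.subgroupOf hw.P) :=
    ⟨p, Subgroup.mem_subgroupOf.2 hp, rfl⟩
  rw [hw.accept] at h1
  show labY T.μ (hw.π₀ p) ∈ Ahat Λ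
  generalize hw.π₀ p = e0 at h1
  induction h1 using Subgroup.closure_induction with
  | mem e he =>
    obtain ⟨w, hd, rfl⟩ := he
    rw [map_mul, map_mul, map_inv, labY_incJ, labY_Jl]
    exact conj_inl_mem_Ahat Λ (hΛ w hd)
  | one => rw [map_one]; exact Subgroup.one_mem _
  | mul a b _ _ ha hb => rw [map_mul]; exact Subgroup.mul_mem _ ha hb
  | inv a _ ha => rw [map_inv]; exact Subgroup.inv_mem _ ha

/-- `⟨S0, θ(Λ)⟩ ≤ ⟨K × Stab(o), ρ⟩`  (generators: `bas (k,1)`, `ρ`, `j θ(x) j⁻¹ = bas (1, jY * inl x * jY⁻¹)` with `conj_j_mem_Ahat`,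
`θ(l) = bas (1, inl l)` with `inl_mem_Ahat_iff`). -/
theorem Lnext_le_Lhat (Λ : Subgroup X) : T.Lnext Λ ≤ T.Lhat (hw.K.prod (Ahat Λ)) := by
  unfold Lnext Lhat
  rw [Subgroup.closure_le]
  rintro x (((⟨k, hk, rfl⟩ | hx) | ⟨x', rfl⟩) | ⟨l, hl, rfl⟩)
  · exact Subgroup.subset_closure
      (Or.inl ⟨(k, 1), Subgroup.mem_prod.2 ⟨hk, Subgroup.one_mem _⟩, rfl⟩)
  · exact Subgroup.subset_closure (Or.inr hx)
  · refine Subgroup.subset_closure (Or.inl ⟨(1, jY X * inl x' * (jY X)⁻¹),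
      Subgroup.mem_prod.2 ⟨Subgroup.one_mem _, conj_j_mem_Ahat Λ x'⟩, ?_⟩)
    have : ((1 : H), jY X * inl x' * (jY X)⁻¹) = (1, jY X) * (1, inl x') * (1, jY X)⁻¹ := by
      ext <;> simp
    rw [this, map_mul, map_mul, map_inv, bas_jY, bas_inl]
  · exact Subgroup.subset_closure (Or.inl ⟨(1, inl l),
      Subgroup.mem_prod.2 ⟨Subgroup.one_mem _, (inl_mem_Ahat_iff Λ l).2 hl⟩, T.bas_inl l⟩)

theorem adm_Ahat {Λ : Subgroup X} (hΛ : ∀ w, hw.D .nl w → T.val w ∉ Λ) (hm : Λ ≤ T.Lnext Λ) :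
    T.Adm hw.K (Ahat Λ) where
  le := le_rfl
  compat p hp := T.piY_mem_Ahat hw hΛ p hp
  j := jY_not_mem_Ahat Λ
  θ x hx := T.Lnext_le_Lhat hw Λ (hm ((inl_mem_Ahat_iff Λ x).1 hx))

theorem soundL_step {Λ : Subgroup X} (hΛ : ∀ w, hw.D .nl w → T.val w ∉ Λ) (hm : Λ ≤ T.Lnext Λ) :
    ∀ w, hw.D .nl w → T.val w ∉ T.Lnext Λ :=
  fun _ hd hmem => T.sound hw _ _ (T.adm_Ahat hw hΛ hm) hd (T.Lnext_le_Lhat hw Λ hmem)

theorem soundL_seq (k : ℕ) : ∀ w, hw.D .nl w → T.val w ∉ T.Lseq k := by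
  induction k with
  | zero =>
    intro w hd h
    rw [T.Lseq_zero, Subgroup.mem_bot] at h
    exact T.nl_ne_one hw hd h
  | succ k ih =>
    rw [T.Lseq_succ]
    refine T.soundL_step hw ih ?_
    rw [← T.Lseq_succ]
    exact T.Lseq_mono (Nat.le_succ k)

/-- **SOUNDNESS.** -/
theorem soundL : ∀ w, hw.D .nl w → T.val w ∉ T.L := by
  intro w hd h
  obtain ⟨k, hk⟩ := (T.mem_L_iff _).1 h
  exact T.soundL_seq hw k w hd hk

theorem adm_L : T.Adm hw.K (Ahat T.L) := T.adm_Ahat hw (T.soundL hw) T.L_le_Lnext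

theorem L_le_Lhat : T.L ≤ T.Lhat (hw.K.prod (Ahat T.L)) :=
  T.L_le_Lnext.trans (T.Lnext_le_Lhat hw T.L)

/-- `L ∩ base ≤ K × Stab(o)` -/
theorem bas_mem_L {g : H × YG X} (hg : T.bas g ∈ T.L) : g.1 ∈ hw.K ∧ g.2 ∈ Ahat T.L := by
  have h1 := T.L_le_Lhat hw hg
  have h2 := (T.Lhat_head _ ((T.adm_L hw).Compat T) ⟨g, [], by simp⟩
    (by simpa [eval, evalL_nil] using h1)).1 rfl
  exact Subgroup.mem_prod.1 h2

/-- (ii) -/
theorem j_not_mem_L : T.j ∉ T.L := by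
  intro h
  rw [← T.bas_jY] at h
  exact jY_not_mem_Ahat T.L (T.bas_mem_L hw h).2

/-- (i) -/
theorem mem_L_of_θ_mem_L {x : X} (hx : T.θ x ∈ T.L) : x ∈ T.L := by
  rw [← T.bas_inl] at hx
  exact (inl_mem_Ahat_iff T.L x).1 (T.bas_mem_L hw hx).2

/-- (v).  Take `h ∉ K P` (`hw.kp_ne_top`), `y = (h,1) ρ`: the word `(h,1) ρ (1,θ u) ρ⁻¹ (h⁻¹,1)` is reduced (`(1, inl x) ∉ AM`) and its head is
not in `S · graph π`; so it is in `Sem nl` (`cat_nl_bnSB_rpos` or `Lhat_head` directly), and `L ≤ Lhat`. -/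
theorem core {x : X} (hx : x ≠ 1) : ∃ y : X, y * T.θ x * y⁻¹ ∉ T.L := by
  obtain ⟨h, hh⟩ := hw.kp_ne_top
  refine ⟨T.bas (h, 1) * T.rho, fun hmem => ?_⟩
  have hred : T.Red [((1 : ℤˣ), ((1 : H), (inl x : YG X))), ((-1 : ℤˣ), (h⁻¹, (1 : YG X)))] := by
    refine List.IsChain.cons_cons (fun hA => ?_) (by simp)
    exfalso
    have hA' : ((1 : H), (inl x : YG X)) ∈ AM hw.toHwBase (X := X) := by simpa using hA
    have h2 := ((mem_AM_iff hw.toHwBase _).1 hA').2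
    have h3 : (inl x : YG X) = inl 1 := by rw [map_one]; exact h2
    exact hx (Monoid.Coprod.inl_injective h3)
  have h1 : T.bas (h, 1) ∈ T.Sem hw.K (Ahat T.L) .bnSB := by
    refine ⟨(h, 1), fun s hs hB => ?_, rfl⟩
    obtain ⟨hp, -⟩ := (mem_BM_iff hw.toHwBase T.μ _).1 hB
    have hk := (Subgroup.mem_prod.1 hs).1
    refine hh s.1 hk (s.1⁻¹ * h) (by simpa using hp) ?_
    group
  have h2 : T.evalL [((1 : ℤˣ), ((1 : H), (inl x : YG X))), ((-1 : ℤˣ), (h⁻¹, (1 : YG X)))]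
      ∈ T.Sem hw.K (Ahat T.L) .rpos := ⟨_, _, hred, rfl⟩
  have h3 := T.cat_nl_bnSB_rpos hw.K (Ahat T.L) (T.adm_L hw) _ h1 _ h2
  apply h3
  apply T.L_le_Lhat hw
  have h4 : T.bas (h, 1) *
      T.evalL [((1 : ℤˣ), ((1 : H), (inl x : YG X))), ((-1 : ℤˣ), (h⁻¹, (1 : YG X)))]
      = T.bas (h, 1) * T.rho * T.θ x * (T.bas (h, 1) * T.rho)⁻¹ := by
    have h5 : T.bas (h⁻¹, 1) = (T.bas (h, 1))⁻¹ := by
      rw [← map_inv]; simp
    rw [evalL_cons, evalL_cons, evalL_nil, bas_inl, h5]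
    simp [mul_assoc]
  rw [h4]
  exact hmem

end Tower

end Claimed.Agent.R152.CT
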