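import Claimed.Agent.R152.C1
import Claimed.Agent.R152.CT.SoundL
import Claimed.Agent.R152.CT.CompleteL
import Claimed.Agent.R152.CT.DeltaFP

/-!
# Row 152, module CT, file 23: MAIN THEOREM of module CT:  a group `H` with a `Hardware` embeds in a finitely presented simple group.
-/

namespace Claimed.Agent.R152.CT

open Monoid.Coprod

universe u

variable {H : Type u} [Group H] {n : ℕ} {X : Type} [Group X]

namespace Tower

section
variable {B : HwBase H n} (T : Tower B X)

/-- `X` inside `Δ` -/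
noncomputable def XD : Subgroup T.Delta := T.ofD.range

/-- `L` inside `Δ` -/
noncomputable def LDel : Subgroup T.Delta := T.L.map T.ofD

theorem ofD_mem_LDel {x : X} : T.ofD x ∈ T.LDel ↔ x ∈ T.L :=
  Subgroup.mem_map_iff_mem T.ofD_injective

/-- `H → Δ` -/
noncomputable def hToD : H →* T.Delta := T.ofD.comp (T.bas.comp (MonoidHom.inl H (YG X)))

theorem hToD_injective : Function.Injective T.hToD := by
  intro a b h
  have h1 := T.bas_injective (T.ofD_injective h)
  exact congrArg Prod.fst h1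

end

variable (hw : Hardware H n) (T : Tower hw.toHwBase X)

/-- **The DATA of module C1.** -/
theorem data : C1.Data T.XD T.LDel T.tau (T.ofD T.j) where
  deg := by
    obtain ⟨d, h1, h2⟩ := T.exists_deg
    refine ⟨d, h1, ?_⟩
    rintro _ ⟨x, rfl⟩
    exact h2 x
  gen := T.delta_gen
  τX := by
    rintro _ ⟨x, rfl⟩
    exact ⟨T.θ x, (T.tau_conj x).symm⟩
  LX := by
    rintro _ ⟨x, -, rfl⟩
    exact ⟨x, rfl⟩
  i1 := by
    rintro _ ⟨x, hx, rfl⟩
    rw [T.tau_conj, T.ofD_mem_LDel]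
    exact T.θ_mem_L hx
  i2 := by
    rintro _ ⟨x, rfl⟩ h
    rw [T.tau_conj, T.ofD_mem_LDel] at h
    rw [T.ofD_mem_LDel]
    exact T.mem_L_of_θ_mem_L hw h
  jX := ⟨T.j, rfl⟩
  ii := by
    rw [T.ofD_mem_LDel]
    exact T.j_not_mem_L hw
  iii := by
    rintro _ ⟨x, rfl⟩
    rw [T.tau_conj, ← map_inv, ← map_mul, ← map_mul, T.ofD_mem_LDel]
    have := T.conj_j_mem_L x
    rwa [T.j_inv] at this ⊢
  iv := by
    rintro _ ⟨x, rfl⟩ h
    rw [T.ofD_mem_LDel] at h
    rw [T.tau_conj, ← map_inv, ← map_mul, ← map_mul, T.ofD_mem_LDel]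
    exact T.conj_mem_L hw h
  v := by
    rintro _ ⟨x, rfl⟩ h
    have hx : x ≠ 1 := fun e => h (by rw [e, map_one])
    obtain ⟨y, hy⟩ := T.core hw hx
    refine ⟨T.ofD y, ⟨y, rfl⟩, ?_⟩
    rw [T.tau_conj, ← map_inv, ← map_mul, ← map_mul, T.ofD_mem_LDel]
    exact hy

/-- `⟨L, τ⟩` is finitely generated: by `τ`, `ρ`, `(k,1)` (`k` in a finite generating set of `K`, `hw.K_fg`) and `j θ(z) j⁻¹` (`z` a generator of `X`).
Let `Q` be the subgroup generated by these.  `ofD (L_k) ≤ Q` by induction on `k`: `ofD (θ l) = τ (ofD l) τ⁻¹`; `k ↦ ofD (bas (k,1))` and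
`x ↦ ofD (j θ(x) j⁻¹)` are homomorphisms, so it is enough to look at generators (`μ_surj`, `FreeGroup.induction_on`). -/
theorem LD_fg : (C1.LD T.LDel T.tau).FG := by
  classical
  obtain ⟨SK, hSK⟩ := hw.K_fg
  -- the two auxiliary homomorphisms
  let f1 : H →* T.Delta := T.ofD.comp (T.bas.comp (MonoidHom.inl H (YG X)))
  let f2 : X →* T.Delta := T.ofD.comp ((MulAut.conj T.j).toMonoidHom.comp T.θ)
  have hf1 : ∀ k : H, f1 k = T.ofD (T.bas (k, 1)) := fun k => rfl
  have hf2 : ∀ x : X, f2 x = T.ofD (T.j * T.θ x * T.j⁻¹) := fun x => rfl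
  -- the finite generating set
  let G : Set T.Delta := (({T.tau} ∪ {T.ofD T.rho}) ∪ f1 '' (SK : Set H)) ∪
    Set.range (fun z : Z n => f2 (T.μ (FreeGroup.of z)))
  have hGfin : G.Finite :=
    (((Set.finite_singleton _).union (Set.finite_singleton _)).union
      (SK.finite_toSet.image _)).union (Set.finite_range _)
  have hτG : T.tau ∈ Subgroup.closure G :=
    Subgroup.subset_closure (Or.inl (Or.inl (Or.inl rfl)))
  have hρG : T.ofD T.rho ∈ Subgroup.closure G :=
    Subgroup.subset_closure (Or.inl (Or.inl (Or.inr rfl)))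
  have hK : ∀ k ∈ hw.K, f1 k ∈ Subgroup.closure G := by
    have h1 : hw.K ≤ (Subgroup.closure G).comap f1 := by
      rw [← hSK, Subgroup.closure_le]
      intro k hk
      exact Subgroup.subset_closure (Or.inl (Or.inr ⟨k, hk, rfl⟩))
    exact fun k hk => h1 hk
  have hX : ∀ x : X, f2 x ∈ Subgroup.closure G := by
    have h1 : (⊤ : Subgroup (FX n)) ≤ (Subgroup.closure G).comap (f2.comp T.μ) := by
      rw [← FreeGroup.closure_range_of, Subgroup.closure_le]
      rintro _ ⟨z, rfl⟩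
      exact Subgroup.subset_closure (Or.inr ⟨z, rfl⟩)
    intro x
    obtain ⟨w, rfl⟩ := T.μ_surj x
    exact h1 (Subgroup.mem_top w)
  have hseq : ∀ k : ℕ, T.Lseq k ≤ (Subgroup.closure G).comap T.ofD := by
    intro k
    induction k with
    | zero => rw [T.Lseq_zero]; exact bot_le
    | succ k ih =>
      rw [T.Lseq_succ, Tower.Lnext, Subgroup.closure_le]
      rintro x (((⟨k', hk', rfl⟩ | hx) | ⟨x', rfl⟩) | ⟨l, hl, rfl⟩)
      · exact hK k' hk'
      · rw [Set.mem_singleton_iff.1 hx]; exact hρG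
      · exact hX x'
      · show T.ofD (T.θ l) ∈ Subgroup.closure G
        rw [← T.tau_conj]
        exact (Subgroup.closure G).mul_mem ((Subgroup.closure G).mul_mem hτG (ih hl))
          ((Subgroup.closure G).inv_mem hτG)
  rw [Subgroup.fg_iff]
  refine ⟨G, le_antisymm ?_ ?_, hGfin⟩
  · rw [Subgroup.closure_le]
    rintro g (((hg | hg) | ⟨k, hk, rfl⟩) | ⟨z, rfl⟩)
    · rw [Set.mem_singleton_iff.1 hg]; exact C1.τ_mem_LD _ _
    · rw [Set.mem_singleton_iff.1 hg]
      exact C1.le_LD _ _ (T.ofD_mem_LDel.2 T.rho_mem_L)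
    · refine C1.le_LD _ _ (T.ofD_mem_LDel.2 (T.basK_mem_L ?_))
      rw [← hSK]
      exact Subgroup.subset_closure hk
    · exact C1.le_LD _ _ (T.ofD_mem_LDel.2 (T.conj_j_mem_L _))
  · unfold C1.LD
    rw [Subgroup.closure_le]
    rintro g (hg | hg)
    · obtain ⟨x, hx, rfl⟩ := hg
      obtain ⟨k, hk⟩ := (T.mem_L_iff x).1 hx
      exact hseq k hk
    · rw [Set.mem_singleton_iff.1 hg]; exact hτG

end Tower

/-- **MAIN THEOREM of module CT.** -/
theorem main (hw : Hardware H n) :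
    ∃ (S : Type u) (_ : Group S), Group.IsFinitelyPresented S ∧ IsSimpleGroup S ∧
      ∃ f : H →* S, Function.Injective f := by
  have hfp : Group.IsFinitelyPresented hw.tower.Delta := hw.delta_fp
  obtain ⟨S, _, h1, h2, f, hf⟩ := C1.embeds_of_data (hw.tower.data hw) (hw.tower.LD_fg hw)
  refine ⟨ULift.{u} S, inferInstance, Group.IsFinitelyPresented.equiv MulEquiv.ulift.symm,
    MulEquiv.ulift.isSimpleGroup,
    (MulEquiv.ulift.symm.toMonoidHom.comp f).comp hw.tower.hToD, ?_⟩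
  intro a b h
  exact hw.tower.hToD_injective (hf (MulEquiv.ulift.symm.injective h))

end Claimed.Agent.R152.CT
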