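import Claimed.Agent.R152.CT.Gram
import Claimed.Agent.R152.RE.Closure

/-!
# Row 152, module CT, file 24: the names are recursively enumerable, uniformly in the parameter `q`.

Input: a family `q ↦ Bq q : HwBase H n` with one substitution `θ` (`thL` does not depend on `q`), r.e. evidence languages, an r.e. language of generators of `P`
and a computable word `t_q`.  Output: `RELang fun q w => (Bq q).D i w` for every sort `i` (module RE, `der_re`).
-/

namespace Claimed.Agent.R152.CT

open Claimed.Agent.R152.RE

universe u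

instance instFintypeSrt : Fintype Srt :=
  ⟨{.all, .eps, .wh, .e1, .ep, .ek, .ekp, .sp, .wp, .jj, .rp, .rn, .tall, .yall, .tn1, .yj, .yt, .y1,
    .tnl, .yrep, .gr0, .gr, .ball, .bn1, .bnA, .bnB, .bnS, .bnSA, .bnSB, .tp, .tn, .rpos, .rneg,
    .n1, .nl}, by intro x; cases x <;> decide⟩

/-- sorts are a finite type, hence `Primcodable` -/
noncomputable instance instPrimcodableSrt : Primcodable Srt :=
  Primcodable.ofEquiv (Fin (Fintype.card Srt)) (Fintype.equivFin Srt)

variable {H : Type u} [Group H] {n : ℕ}

/-- the grammar of module RE -/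
def gramRE (th : Z n × Bool → WX n) : Gram Srt (Z n × Bool) where
  cat := catT
  sub := []
  mor := morT
  th := th

/-- the two notions of derivation agree -/
theorem der_iff_RE (Bq : ℕ → HwBase H n) (th : Z n × Bool → WX n) (hth : ∀ q, (Bq q).thL = th)
    (q : ℕ) (i : Srt) (w : WX n) :
    (Bq q).D i w ↔ RE.Der (gramRE th) (fun q i w => (Bq q).base i w) q i w := by
  constructor
  · intro h
    induction h with
    | base h => exact RE.Der.base h
    | cat hr _ _ ih1 ih2 => exact RE.Der.cat hr ih1 ih2
    | mor hr _ ih =>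
      rw [hth q]
      exact RE.Der.mor (G := gramRE th) hr ih
  · intro h
    induction h with
    | base h => exact Der.base h
    | cat hr _ _ ih1 ih2 => exact Der.cat hr ih1 ih2
    | sub hr _ _ => simp [gramRE] at hr
    | mor hr _ ih =>
      have e : (gramRE th).th = (Bq q).thL := (hth q).symm
      rw [e]
      exact Der.mor hr ih

theorem computable_incW : Computable (incW : WH n → WX n) := by
  have : Primrec (incW : WH n → WX n) :=
    Primrec.list_map Primrec.id
      ((Primrec.option_some.comp (Primrec.fst.comp Primrec.snd)).pair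
        (Primrec.snd.comp Primrec.snd)).to₂
  exact this.to_comp

theorem computable_invRev {α : Type} [Primcodable α] :
    Computable (FreeGroup.invRev : List (α × Bool) → List (α × Bool)) := by
  have : Primrec (FreeGroup.invRev : List (α × Bool) → List (α × Bool)) :=
    Primrec.list_reverse.comp (Primrec.list_map Primrec.id
      ((Primrec.fst.comp Primrec.snd).pair (Primrec.not.comp (Primrec.snd.comp Primrec.snd))).to₂)
  exact this.to_comp

theorem computable_jW (Bq : ℕ → HwBase H n) (htW : Computable fun q => (Bq q).tW) :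
    Computable fun q => (Bq q).jW := by
  have h1 : Computable fun q => incW (Bq q).tW := computable_incW.comp htW
  have h2 : Computable fun q => FreeGroup.invRev (incW (Bq q).tW) := computable_invRev.comp h1
  have happ : Computable₂ (fun (a b : WX n) => a ++ b) := Primrec.list_append.to_comp
  exact happ.comp (happ.comp (happ.comp h2 (Computable.const (rhoW n))) h1)
    (Computable.const (rhoW' n))

/-- the list of base languages -/
def baseList (Bq : ℕ → HwBase H n) : List (Srt × (ℕ → WX n → Prop)) :=
  [(.all, fun _ _ => True), (.eps, fun _ w => w = []),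
   (.wh, fun _ w => ∃ v : WH n, True ∧ w = incW v),
   (.e1, fun q w => ∃ v, v ∈ (Bq q).Ev1 ∧ w = incW v),
   (.ep, fun q w => ∃ v, v ∈ (Bq q).EvP ∧ w = incW v),
   (.ek, fun q w => ∃ v, v ∈ (Bq q).EvK ∧ w = incW v),
   (.ekp, fun q w => ∃ v, v ∈ (Bq q).EvKP ∧ w = incW v),
   (.sp, fun q w => (∃ v, v ∈ (Bq q).SP ∧ w = incW v) ∨
      (∃ v, v ∈ (Bq q).SP ∧ w = incW (FreeGroup.invRev v))),
   (.jj, fun q w => w = (Bq q).jW), (.rp, fun _ w => w = rhoW n), (.rn, fun _ w => w = rhoW' n)]

theorem base_iff_baseList (Bq : ℕ → HwBase H n) (q : ℕ) (i : Srt) (w : WX n) :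
    (∃ y ∈ baseList Bq, y.1 = i ∧ y.2 q w) ↔ (Bq q).base i w := by
  cases i <;> simp [baseList, HwBase.base]
  constructor
  · rintro (⟨v, hv, rfl⟩ | ⟨v, hv, rfl⟩)
    · exact ⟨v, hv, Or.inl rfl⟩
    · exact ⟨v, hv, Or.inr rfl⟩
  · rintro ⟨v, hv, rfl | rfl⟩
    · exact Or.inl ⟨v, hv, rfl⟩
    · exact Or.inr ⟨v, hv, rfl⟩

/-- the base languages are r.e. -/
theorem base_re (Bq : ℕ → HwBase H n)
    (h1 : RELang fun q (w : WH n) => w ∈ (Bq q).Ev1)
    (hP : RELang fun q (w : WH n) => w ∈ (Bq q).EvP)
    (hK : RELang fun q (w : WH n) => w ∈ (Bq q).EvK)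
    (hKP : RELang fun q (w : WH n) => w ∈ (Bq q).EvKP)
    (hSP : RELang fun q (w : WH n) => w ∈ (Bq q).SP)
    (htW : Computable fun q => (Bq q).tW) :
    REPred fun x : ℕ × Srt × WX n => (Bq x.1).base x.2.1 x.2.2 := by
  have hi : Computable₂ (fun (_ : ℕ) (v : WH n) => incW v) := computable_incW.comp Computable.snd
  have hi' : Computable₂ (fun (_ : ℕ) (v : WH n) => incW (FreeGroup.invRev v)) :=
    computable_incW.comp (computable_invRev.comp Computable.snd)
  have hall : ∀ y ∈ baseList Bq, RELang y.2 := by
    simp only [baseList, List.forall_mem_cons, List.not_mem_nil, false_imp_iff, implies_true,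
      and_true]
    exact ⟨RELang.univ, RELang.singleton (Computable.const []), RELang.univ.image' hi,
      h1.image' hi, hP.image' hi, hK.image' hi, hKP.image' hi,
      (hSP.image' hi).union (hSP.image' hi'), RELang.singleton (computable_jW Bq htW),
      RELang.singleton (Computable.const _), RELang.singleton (Computable.const _)⟩
  exact REPred.of_eq (re_base_of_list (baseList Bq) hall)
    (fun x => base_iff_baseList Bq x.1 x.2.1 x.2.2)

/-- **The names are r.e.** -/
theorem D_relang (Bq : ℕ → HwBase H n) (th : Z n × Bool → WX n) (hth : ∀ q, (Bq q).thL = th)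
    (h1 : RELang fun q (w : WH n) => w ∈ (Bq q).Ev1)
    (hP : RELang fun q (w : WH n) => w ∈ (Bq q).EvP)
    (hK : RELang fun q (w : WH n) => w ∈ (Bq q).EvK)
    (hKP : RELang fun q (w : WH n) => w ∈ (Bq q).EvKP)
    (hSP : RELang fun q (w : WH n) => w ∈ (Bq q).SP)
    (htW : Computable fun q => (Bq q).tW) (i : Srt) :
    RELang fun q (w : WX n) => (Bq q).D i w := by
  have hth' : Primrec (gramRE th).th := Primrec.dom_finite _
  have h : REPred fun x : ℕ × Srt × WX n =>
      RE.Der (gramRE th) (fun q i w => (Bq q).base i w) x.1 x.2.1 x.2.2 :=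
    der_re (gramRE th) hth' (base_re Bq h1 hP hK hKP hSP htW)
  have hc : Computable fun x : ℕ × WX n => (x.1, i, x.2) :=
    Computable.fst.pair ((Computable.const i).pair Computable.snd)
  have h2 : REPred fun x : ℕ × WX n =>
      RE.Der (gramRE th) (fun q i w => (Bq q).base i w) x.1 i x.2 := re_comp h hc
  exact REPred.of_eq h2 (fun x => (der_iff_RE Bq th hth x.1 i x.2).symm)

end Claimed.Agent.R152.CT
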