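import Claimed.Agent.R152.CT.RWops
import Claimed.Agent.R152.CT.Gram
import Claimed.Agent.R152.CT.Alt

/-!
# Row 152, module CT, file 8: the MEANING of the sorts; the generic soundness principle.

`Sem K' A' i ⊆ X` is the set of elements a word of sort `i` is allowed to denote, relative to a pair of subgroups `K' ≤ H`, `A' ≤ Y`
(`S = K' × A'`).  It is used for `(K', A') = (⊥, ⊥)` (names are `≠ 1`) and for `(K, Stab_Y(o))`, `o ∈ X/Λ ⊔ {q}` (names are not in `⟨S0, θ(Λ)⟩`).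
"Each rule is a true inclusion": files `SemCatA/B/C`.
-/

namespace Claimed.Agent.R152.CT

open Monoid.Coprod HNNExtension

universe u

/-- generic soundness of a grammar -/
theorem Der.sound {α σ M : Type} [Monoid M] {base : σ → List α → Prop}
    {catT : List (σ × σ × σ)} {morT : List (σ × σ)} {th : α → List α}
    (val : List α → M) (θ : M → M) (S : σ → Set M)
    (happ : ∀ u v, val (u ++ v) = val u * val v) (hth : ∀ u, val (u.flatMap th) = θ (val u))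
    (hb : ∀ i w, base i w → val w ∈ S i)
    (hc : ∀ r ∈ catT, ∀ x ∈ S r.2.1, ∀ y ∈ S r.2.2, x * y ∈ S r.1)
    (hm : ∀ r ∈ morT, ∀ x ∈ S r.2, θ x ∈ S r.1) {i : σ} {w : List α}
    (h : Der base catT morT th i w) : val w ∈ S i := by
  induction h with
  | base h => exact hb _ _ h
  | cat hr _ _ ih1 ih2 => rw [happ]; exact hc _ hr _ ih1 _ ih2
  | mor hr _ ih => rw [hth]; exact hm _ hr _ ih

variable {H : Type u} [Group H] {n : ℕ} {B : HwBase H n} {X : Type} [Group X]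

namespace Tower

variable (T : Tower B X) (K' : Subgroup H) (A' : Subgroup (YG X))

/-- the meaning of the sorts -/
def Sem : Srt → Set X
  | .all => Set.univ
  | .eps => {1}
  | .wh => {x | ∃ h : H, x = T.bas (h, 1)}
  | .e1 => {x | ∃ h : H, h ≠ 1 ∧ x = T.bas (h, 1)}
  | .ep => {x | ∃ h : H, h ∉ B.P ∧ x = T.bas (h, 1)}
  | .ek => {x | ∃ h : H, h ∉ K' ∧ x = T.bas (h, 1)}
  | .ekp => {x | ∃ h : H, (∀ k ∈ K', ∀ p ∈ B.P, h ≠ k * p) ∧ x = T.bas (h, 1)}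
  | .sp => {x | ∃ p : B.P, x = T.bas ((p : H), 1)}
  | .wp => {x | ∃ p : B.P, x = T.bas ((p : H), 1)}
  | .jj => {T.j}
  | .rp => {T.rho}
  | .rn => {T.rho⁻¹}
  | .tall => {x | ∃ x' : X, x = T.θ x'}
  | .yall => {x | ∃ y : YG X, x = T.bas (1, y)}
  | .tn1 => {x | ∃ x' : X, x' ≠ 1 ∧ x = T.θ x'}
  | .yj => {x | ∃ zs : List (Option X), AltOK (none :: zs) ∧ x = T.bas (1, yprodX (none :: zs))}
  | .yt => {x | ∃ (u : X) (zs : List (Option X)), AltOK (some u :: zs) ∧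
      x = T.bas (1, yprodX (some u :: zs))}
  | .y1 => {x | ∃ y : YG X, y ≠ 1 ∧ x = T.bas (1, y)}
  | .tnl => {x | ∃ x' : X, inl x' ∉ A' ∧ x = T.θ x'}
  | .yrep => {x | ∃ y : YG X, y ∉ A' ∧ x = T.bas (1, y)}
  | .gr0 => {x | ∃ p : B.P, x = T.rho * T.bas ((p : H), 1)}
  | .gr => {x | ∃ p : B.P, x = T.bas ((p : H), piY B T.μ p)}
  | .ball => {x | ∃ g : H × YG X, x = T.bas g}
  | .bn1 => {x | ∃ g : H × YG X, g ≠ 1 ∧ x = T.bas g}
  | .bnA => {x | ∃ g : H × YG X, g ∉ AM B (X := X) ∧ x = T.bas g}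
  | .bnB => {x | ∃ g : H × YG X, g ∉ BM B T.μ ∧ x = T.bas g}
  | .bnS => {x | ∃ g : H × YG X, g ∉ K'.prod A' ∧ x = T.bas g}
  | .bnSA => {x | ∃ g : H × YG X, (∀ s ∈ K'.prod A', s⁻¹ * g ∉ AM B (X := X)) ∧ x = T.bas g}
  | .bnSB => {x | ∃ g : H × YG X, (∀ s ∈ K'.prod A', s⁻¹ * g ∉ BM B T.μ) ∧ x = T.bas g}
  | .tp => {x | ∃ (g : H × YG X) (l : List (ℤˣ × (H × YG X))), T.Red ((1, g) :: l) ∧
      x = T.bas g * T.evalL l}
  | .tn => {x | ∃ (g : H × YG X) (l : List (ℤˣ × (H × YG X))), T.Red ((-1, g) :: l) ∧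
      x = T.bas g * T.evalL l}
  | .rpos => {x | ∃ (g : H × YG X) (l : List (ℤˣ × (H × YG X))), T.Red ((1, g) :: l) ∧
      x = T.evalL ((1, g) :: l)}
  | .rneg => {x | ∃ (g : H × YG X) (l : List (ℤˣ × (H × YG X))), T.Red ((-1, g) :: l) ∧
      x = T.evalL ((-1, g) :: l)}
  | .n1 => {x | x ≠ 1}
  | .nl => {x | x ∉ T.Lhat (K'.prod A')}

/-- admissible pairs `(K', A')` -/
structure Adm : Prop where
  le : K' ≤ B.K
  compat : ∀ p : B.P, (p : H) ∈ K' → piY B T.μ p ∈ A'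
  j : jY X ∉ A'
  θ : ∀ x : X, inl x ∈ A' → x ∈ T.Lhat (K'.prod A')

/-- the rule `i ← a · b` is a true inclusion -/
def CatOK (i a b : Srt) : Prop := ∀ x ∈ T.Sem K' A' a, ∀ y ∈ T.Sem K' A' b, x * y ∈ T.Sem K' A' i

/-- the rule `i ← θ(a)` is a true inclusion -/
def MorOK (i a : Srt) : Prop := ∀ x ∈ T.Sem K' A' a, T.θ x ∈ T.Sem K' A' i

variable {K' A'}

theorem Adm.Compat (h : T.Adm K' A') : T.Compat (K'.prod A') := by
  intro p
  simp only [Subgroup.mem_prod]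
  constructor
  · intro hp; exact ⟨hp.1, h.compat p hp.1⟩
  · intro hp; exact ⟨hp.1, A'.one_mem⟩

/-- a unit rule -/
theorem CatOK.unit {i a : Srt} (h : T.Sem K' A' a ⊆ T.Sem K' A' i) : T.CatOK K' A' i a .eps := by
  intro x hx y hy
  have : y = 1 := hy
  rw [this, mul_one]
  exact h hx

end Tower

end Claimed.Agent.R152.CT
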