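import Claimed.Agent.R152.CT.Sem

/-!
# Row 152, module CT, file 9A: the concatenation rules are true inclusions (sorts inside `P` and `Y`).
Unfold with `intro x hx y hy; simp only [Tower.Sem, Set.mem_setOf_eq, Set.mem_singleton_iff] at hx hy ⊢` (or `obtain ⟨..⟩ := hx`); unit rules: `CatOK.unit`.
-/

namespace Claimed.Agent.R152.CT

open Monoid.Coprod HNNExtension

universe u

variable {H : Type u} [Group H] {n : ℕ} {B : HwBase H n} {X : Type} [Group X]

namespace Tower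

variable (T : Tower B X) (K' : Subgroup H) (A' : Subgroup (YG X))

theorem cat_wp_eps_eps : T.CatOK K' A' .wp .eps .eps := by
  intro x hx y hy
  obtain rfl : x = 1 := hx
  obtain rfl : y = 1 := hy
  exact ⟨1, by rw [mul_one]; exact (map_one T.bas).symm⟩

theorem cat_wp_sp_wp : T.CatOK K' A' .wp .sp .wp := by
  rintro x ⟨p, rfl⟩ y ⟨p', rfl⟩
  exact ⟨p * p', by rw [← map_mul]; simp⟩

theorem cat_yall_eps_eps : T.CatOK K' A' .yall .eps .eps := by
  intro x hx y hy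
  obtain rfl : x = 1 := hx
  obtain rfl : y = 1 := hy
  exact ⟨1, by rw [mul_one]; exact (map_one T.bas).symm⟩

theorem cat_yall_jj_yall : T.CatOK K' A' .yall .jj .yall := by
  rintro x hx y ⟨y', rfl⟩
  obtain rfl : x = T.j := hx
  exact ⟨jY X * y', by rw [← bas_jY, ← map_mul]; simp⟩

theorem cat_yall_tall_yall : T.CatOK K' A' .yall .tall .yall := by
  rintro x ⟨x', rfl⟩ y ⟨y', rfl⟩
  exact ⟨inl x' * y', by rw [← bas_inl, ← map_mul]; simp⟩

theorem cat_yj_jj_eps : T.CatOK K' A' .yj .jj .eps := by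
  intro x hx y hy
  obtain rfl : x = T.j := hx
  obtain rfl : y = 1 := hy
  refine ⟨[], ⟨by simp, by simp⟩, ?_⟩
  rw [mul_one, ← bas_jY]
  simp [yprodX, yItemX]

theorem cat_yj_jj_yt : T.CatOK K' A' .yj .jj .yt := by
  rintro x hx y ⟨u, zs, ⟨h1, h2⟩, rfl⟩
  obtain rfl : x = T.j := hx
  refine ⟨some u :: zs, ⟨?_, ?_⟩, ?_⟩
  · exact List.IsChain.cons_cons (by simp) h1
  · intro v hv
    exact h2 v (by simpa using hv)
  · rw [← bas_jY, ← map_mul, yprodX_cons none]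
    simp [yItemX]

theorem cat_yt_tn1_eps : T.CatOK K' A' .yt .tn1 .eps := by
  rintro x ⟨x', h1, rfl⟩ y hy
  obtain rfl : y = 1 := hy
  refine ⟨x', [], ⟨by simp, ?_⟩, ?_⟩
  · intro v hv
    have : v = x' := by simpa using hv
    rw [this]; exact h1
  · rw [mul_one, ← bas_inl]
    simp [yprodX, yItemX]

theorem cat_yt_tn1_yj : T.CatOK K' A' .yt .tn1 .yj := by
  rintro x ⟨x', h1, rfl⟩ y ⟨zs, ⟨h2, h3⟩, rfl⟩
  refine ⟨x', none :: zs, ⟨?_, ?_⟩, ?_⟩
  · exact List.IsChain.cons_cons (by simp) h2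
  · intro v hv
    rcases List.mem_cons.1 hv with hv | hv
    · have : v = x' := by simpa using hv
      rw [this]; exact h1
    · exact h3 v hv
  · rw [← bas_inl, ← map_mul, yprodX_cons (some x')]
    simp [yItemX]

/-- `yprodX_ne_one` -/
theorem cat_y1_yj_eps : T.CatOK K' A' .y1 .yj .eps := by
  apply CatOK.unit
  rintro x ⟨zs, h, rfl⟩
  exact ⟨_, yprodX_ne_one h (by simp), rfl⟩

/-- `yprodX_ne_one` -/
theorem cat_y1_yt_eps : T.CatOK K' A' .y1 .yt .eps := by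
  apply CatOK.unit
  rintro x ⟨u, zs, h, rfl⟩
  exact ⟨_, yprodX_ne_one h (by simp), rfl⟩

theorem cat_yrep_jj_eps (h : T.Adm K' A') : T.CatOK K' A' .yrep .jj .eps := by
  apply CatOK.unit
  intro x hx
  obtain rfl : x = T.j := hx
  exact ⟨jY X, h.j, T.bas_jY.symm⟩

theorem cat_yrep_tnl_eps : T.CatOK K' A' .yrep .tnl .eps := by
  apply CatOK.unit
  rintro x ⟨x', h, rfl⟩
  exact ⟨inl x', h, (T.bas_inl x').symm⟩

theorem cat_gr0_rp_wp : T.CatOK K' A' .gr0 .rp .wp := by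
  rintro x hx y ⟨p, rfl⟩
  obtain rfl : x = T.rho := hx
  exact ⟨p, rfl⟩

/-- `rho_conj` -/
theorem cat_gr_gr0_rn : T.CatOK K' A' .gr .gr0 .rn := by
  rintro x ⟨p, rfl⟩ y hy
  obtain rfl : y = T.rho⁻¹ := hy
  exact ⟨p, T.rho_conj p⟩

end Tower

end Claimed.Agent.R152.CT
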