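import Claimed.Agent.R152.CT.Sem

/-!
# Row 152, module CT, file 9B: the concatenation rules are true inclusions (sorts inside the base).
Unfold with `intro x hx y hy; simp only [Tower.Sem, Set.mem_setOf_eq, Set.mem_singleton_iff] at hx hy ⊢` (or `obtain ⟨..⟩ := hx`); unit rules: `CatOK.unit`.
-/

namespace Claimed.Agent.R152.CT

open Monoid.Coprod HNNExtension

universe u

variable {H : Type u} [Group H] {n : ℕ} {B : HwBase H n} {X : Type} [Group X]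

namespace Tower

variable (T : Tower B X) (K' : Subgroup H) (A' : Subgroup (YG X))

theorem cat_ball_wh_yall : T.CatOK K' A' .ball .wh .yall := by
  rintro x ⟨h, rfl⟩ y ⟨y', rfl⟩
  exact ⟨(h, y'), by rw [← map_mul]; simp⟩

theorem cat_bn1_e1_yall : T.CatOK K' A' .bn1 .e1 .yall := by
  rintro x ⟨h, h1, rfl⟩ y ⟨y', rfl⟩
  exact ⟨(h, y'), fun e => h1 (congrArg Prod.fst e), by rw [← map_mul]; simp⟩

theorem cat_bn1_wh_y1 : T.CatOK K' A' .bn1 .wh .y1 := by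
  rintro x ⟨h, rfl⟩ y ⟨y', h1, rfl⟩
  exact ⟨(h, y'), fun e => h1 (congrArg Prod.snd e), by rw [← map_mul]; simp⟩

theorem cat_bnA_ep_yall : T.CatOK K' A' .bnA .ep .yall := by
  rintro x ⟨h, h1, rfl⟩ y ⟨y', rfl⟩
  exact ⟨(h, y'), fun e => h1 ((mem_AM_iff B _).1 e).1, by rw [← map_mul]; simp⟩

theorem cat_bnA_wh_y1 : T.CatOK K' A' .bnA .wh .y1 := by
  rintro x ⟨h, rfl⟩ y ⟨y', h1, rfl⟩
  exact ⟨(h, y'), fun e => h1 ((mem_AM_iff B _).1 e).2, by rw [← map_mul]; simp⟩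

theorem cat_bnB_ep_yall : T.CatOK K' A' .bnB .ep .yall := by
  rintro x ⟨h, h1, rfl⟩ y ⟨y', rfl⟩
  refine ⟨(h, y'), fun e => ?_, by rw [← map_mul]; simp⟩
  obtain ⟨hp, -⟩ := (mem_BM_iff B T.μ _).1 e
  exact h1 hp

/-- `(1,y)(p,π p) = (p, y π p)` is in the graph only if `y = 1` (`mem_BM_iff`) -/
theorem cat_bnB_y1_gr : T.CatOK K' A' .bnB .y1 .gr := by
  rintro x ⟨y', h1, rfl⟩ y ⟨p, rfl⟩
  refine ⟨((p : H), y' * piY B T.μ p), fun e => ?_, by rw [← map_mul]; simp⟩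
  obtain ⟨hp, h2⟩ := (mem_BM_iff B T.μ _).1 e
  apply h1
  have h3 : y' * piY B T.μ p = piY B T.μ p := h2
  exact mul_eq_right.1 h3

theorem cat_bnS_ek_yall : T.CatOK K' A' .bnS .ek .yall := by
  rintro x ⟨h, h1, rfl⟩ y ⟨y', rfl⟩
  exact ⟨(h, y'), fun e => h1 (Subgroup.mem_prod.1 e).1, by rw [← map_mul]; simp⟩

theorem cat_bnS_yrep_wh : T.CatOK K' A' .bnS .yrep .wh := by
  rintro x ⟨r, h1, rfl⟩ y ⟨h, rfl⟩
  exact ⟨(h, r), fun e => h1 (Subgroup.mem_prod.1 e).2, by rw [← map_mul]; simp⟩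

theorem cat_bnSA_ekp_yall : T.CatOK K' A' .bnSA .ekp .yall := by
  rintro x ⟨h, h1, rfl⟩ y ⟨y', rfl⟩
  refine ⟨(h, y'), fun s hs e => ?_, by rw [← map_mul]; simp⟩
  have h2 := ((mem_AM_iff B _).1 e).1
  exact h1 s.1 (Subgroup.mem_prod.1 hs).1 _ h2 (by simp)

theorem cat_bnSA_yrep_wh : T.CatOK K' A' .bnSA .yrep .wh := by
  rintro x ⟨r, h1, rfl⟩ y ⟨h, rfl⟩
  refine ⟨(h, r), fun s hs e => ?_, by rw [← map_mul]; simp⟩
  have h2 : s.2⁻¹ * r = 1 := ((mem_AM_iff B _).1 e).2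
  have h3 : r = s.2 := by rw [← mul_one s.2, ← h2]; group
  exact h1 (h3 ▸ (Subgroup.mem_prod.1 hs).2)

theorem cat_bnSB_ekp_yall : T.CatOK K' A' .bnSB .ekp .yall := by
  rintro x ⟨h, h1, rfl⟩ y ⟨y', rfl⟩
  refine ⟨(h, y'), fun s hs e => ?_, by rw [← map_mul]; simp⟩
  obtain ⟨h2, -⟩ := (mem_BM_iff B T.μ _).1 e
  exact h1 s.1 (Subgroup.mem_prod.1 hs).1 _ h2 (by simp)

/-- if `s⁻¹ (p, y π p) = (p', π p')` with `s = (k,a)` then `k = p p'⁻¹ ∈ K' ∩ P`, `π k ∈ A'` (`h.compat`), `y = a π(k)⁻¹ ∈ A'` -/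
theorem cat_bnSB_yrep_gr (h : T.Adm K' A') : T.CatOK K' A' .bnSB .yrep .gr := by
  rintro x ⟨r, h1, rfl⟩ y ⟨p, rfl⟩
  refine ⟨((p : H), r * piY B T.μ p), fun s hs e => ?_, by rw [← map_mul]; simp⟩
  obtain ⟨h2, h3⟩ := (mem_BM_iff B T.μ _).1 e
  obtain ⟨hk, ha⟩ := Subgroup.mem_prod.1 hs
  have h2' : s.1⁻¹ * (p : H) ∈ B.P := h2
  set p' : B.P := ⟨s.1⁻¹ * (p : H), h2'⟩ with hp'
  have h3' : s.2⁻¹ * (r * piY B T.μ p) = piY B T.μ p' := h3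
  have hkk : ((p * p'⁻¹ : B.P) : H) = s.1 := by
    simp [hp']
  have h4 : piY B T.μ (p * p'⁻¹) ∈ A' := h.compat _ (by rw [hkk]; exact hk)
  rw [map_mul, map_inv] at h4
  apply h1
  have h5 : r = s.2 * (piY B T.μ p * (piY B T.μ p')⁻¹)⁻¹ := by
    rw [← h3']; group
  rw [h5]
  exact A'.mul_mem ha (A'.inv_mem h4)

end Tower

end Claimed.Agent.R152.CT
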