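import Claimed.Agent.R152.CT.Sem

/-!
# Row 152, module CT, file 9C: the concatenation rules are true inclusions (tails, `n1`, `nl`).
Unfold with `intro x hx y hy; simp only [Tower.Sem, Set.mem_setOf_eq, Set.mem_singleton_iff] at hx hy ⊢` (or `obtain ⟨..⟩ := hx`); unit rules: `CatOK.unit`.
-/

namespace Claimed.Agent.R152.CT

open Monoid.Coprod HNNExtension

universe u

variable {H : Type u} [Group H] {n : ℕ} {B : HwBase H n} {X : Type} [Group X]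

namespace Tower

variable (T : Tower B X) (K' : Subgroup H) (A' : Subgroup (YG X))

theorem cat_tp_ball_eps : T.CatOK K' A' .tp .ball .eps := by
  rintro x ⟨g, rfl⟩ y hy
  obtain rfl : y = 1 := hy
  exact ⟨g, [], by simp, by simp [evalL_nil]⟩

theorem cat_tp_ball_rpos : T.CatOK K' A' .tp .ball .rpos := by
  rintro x ⟨g, rfl⟩ y ⟨g', l, hr, rfl⟩
  exact ⟨g, (1, g') :: l, List.IsChain.cons_cons (fun _ => rfl) hr, rfl⟩

theorem cat_tp_bnA_rneg : T.CatOK K' A' .tp .bnA .rneg := by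
  rintro x ⟨g, hg, rfl⟩ y ⟨g', l, hr, rfl⟩
  exact ⟨g, (-1, g') :: l, List.IsChain.cons_cons (fun h => absurd h hg) hr, rfl⟩

theorem cat_tn_ball_eps : T.CatOK K' A' .tn .ball .eps := by
  rintro x ⟨g, rfl⟩ y hy
  obtain rfl : y = 1 := hy
  exact ⟨g, [], by simp, by simp [evalL_nil]⟩

theorem cat_tn_ball_rneg : T.CatOK K' A' .tn .ball .rneg := by
  rintro x ⟨g, rfl⟩ y ⟨g', l, hr, rfl⟩
  exact ⟨g, (-1, g') :: l, List.IsChain.cons_cons (fun _ => rfl) hr, rfl⟩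

theorem cat_tn_bnB_rpos : T.CatOK K' A' .tn .bnB .rpos := by
  rintro x ⟨g, hg, rfl⟩ y ⟨g', l, hr, rfl⟩
  exact ⟨g, (1, g') :: l, List.IsChain.cons_cons (fun h => absurd h hg) hr, rfl⟩

theorem cat_rpos_rp_tp : T.CatOK K' A' .rpos .rp .tp := by
  rintro x hx y ⟨g, l, hr, rfl⟩
  obtain rfl : x = T.rho := hx
  exact ⟨g, l, hr, by rw [evalL_cons]; simp [mul_assoc]⟩

theorem cat_rneg_rn_tn : T.CatOK K' A' .rneg .rn .tn := by
  rintro x hx y ⟨g, l, hr, rfl⟩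
  obtain rfl : x = T.rho⁻¹ := hx
  exact ⟨g, l, hr, by rw [evalL_cons]; simp [mul_assoc]⟩

theorem cat_n1_bn1_eps : T.CatOK K' A' .n1 .bn1 .eps := by
  apply CatOK.unit
  rintro x ⟨g, hg, rfl⟩
  intro e
  exact hg (T.bas_injective (e.trans (map_one T.bas).symm))

/-- a reduced word with a non-empty list has a value `≠ 1` (Britton) -/
theorem eval_ne_one (g₀ : H × YG X) (u : ℤˣ) (g : H × YG X) (l : List (ℤˣ × (H × YG X)))
    (hr : T.Red ((u, g) :: l)) : T.bas g₀ * T.evalL ((u, g) :: l) ≠ 1 := by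
  intro e
  have := T.britton ⟨g₀, (u, g) :: l, hr⟩ ⟨1, by rw [map_one]; exact e.symm⟩
  simp at this

/-- Britton: `⟨g, l, chain⟩ : T.RW` has value `x * y`; if it is `1 = bas 1` then `britton` gives `l = []` -/
theorem cat_n1_ball_rpos : T.CatOK K' A' .n1 .ball .rpos := by
  rintro x ⟨g, rfl⟩ y ⟨g', l, hr, rfl⟩
  exact T.eval_ne_one g 1 g' l hr

/-- as `cat_n1_ball_rpos` -/
theorem cat_n1_ball_rneg : T.CatOK K' A' .n1 .ball .rneg := by
  rintro x ⟨g, rfl⟩ y ⟨g', l, hr, rfl⟩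
  exact T.eval_ne_one g (-1) g' l hr

/-- `Lhat_head` for the reduced word `⟨g, [], _⟩` and `h.Compat` -/
theorem cat_nl_bnS_eps (h : T.Adm K' A') : T.CatOK K' A' .nl .bnS .eps := by
  apply CatOK.unit
  rintro x ⟨g, hg, rfl⟩
  intro e
  have := (T.Lhat_head _ (h.Compat T) ⟨g, [], by simp⟩ (by simpa [eval, evalL_nil] using e)).1 rfl
  exact hg this

/-- `Lhat_head` for the reduced word `⟨g₀, (1,g)::l, _⟩`: `toSubgroup (-1) = BM` -/
theorem cat_nl_bnSB_rpos (h : T.Adm K' A') : T.CatOK K' A' .nl .bnSB .rpos := by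
  rintro x ⟨g₀, hg, rfl⟩ y ⟨g, l, hr, rfl⟩
  intro e
  obtain ⟨s, hs, h2⟩ := (T.Lhat_head _ (h.Compat T) ⟨g₀, (1, g) :: l, hr⟩ e).2 1 (by simp)
  exact hg s hs h2

/-- `Lhat_head` for the reduced word `⟨g₀, (-1,g)::l, _⟩`: `toSubgroup (-(-1)) = AM` -/
theorem cat_nl_bnSA_rneg (h : T.Adm K' A') : T.CatOK K' A' .nl .bnSA .rneg := by
  rintro x ⟨g₀, hg, rfl⟩ y ⟨g, l, hr, rfl⟩
  intro e
  obtain ⟨s, hs, h2⟩ := (T.Lhat_head _ (h.Compat T) ⟨g₀, (-1, g) :: l, hr⟩ e).2 (-1) (by simp)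
  exact hg s hs (by simpa using h2)

end Tower

end Claimed.Agent.R152.CT
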