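import Claimed.Agent.R152.CT.TowerApi
import Claimed.Agent.R152.CT.Alt

/-!
# Row 152, module CT, file 10: lengths and the SMALL calculus in `Y = ⟨⟨j⟩⟩ ⋊ θ(X)`.

`cj l = θ(l)⁻¹ j θ(l)`.  `Small m y`:  `y = (∏ cj lᵢ) · θ(w)` with `|lᵢ| ≤ m`, `|w| ≤ m` (lengths in the generators of `X`).
-/

namespace Claimed.Agent.R152.CT

open Monoid.Coprod

universe u

variable {H : Type u} [Group H] {n : ℕ} {B : HwBase H n} {X : Type} [Group X]

/-- `θ(l)⁻¹ j θ(l)` in `Y` -/
def cj (l : X) : YG X := (inl l)⁻¹ * jY X * inl l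

theorem cj_mul_self (l : X) : cj l * cj l = 1 := by
  have h := jY_mul_self X
  unfold cj
  calc (inl l)⁻¹ * jY X * inl l * ((inl l)⁻¹ * jY X * inl l)
      = (inl l)⁻¹ * (jY X * jY X) * inl l := by group
    _ = 1 := by rw [h]; group

/-- `θ(w) cj(l) θ(w)⁻¹ = cj (l w⁻¹)` -/
theorem inl_mul_cj (w l : X) : inl w * cj l = cj (l * w⁻¹) * (inl w : YG X) := by
  unfold cj
  simp only [map_mul, map_inv]
  group

namespace Tower

variable (T : Tower B X)

/-- `x` has length `≤ m` in the generators of `X` -/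
def Len (m : ℕ) (x : X) : Prop := ∃ w : FX n, T.μ w = x ∧ w.norm ≤ m

theorem Len.mono {m m' : ℕ} {x : X} (h : T.Len m x) (hm : m ≤ m') : T.Len m' x := by
  obtain ⟨w, h1, h2⟩ := h
  exact ⟨w, h1, h2.trans hm⟩

theorem Len.one : T.Len 0 1 := ⟨1, map_one _, by simp⟩

theorem Len.mul {m m' : ℕ} {x x' : X} (h : T.Len m x) (h' : T.Len m' x') :
    T.Len (m + m') (x * x') := by
  obtain ⟨w, h1, h2⟩ := h
  obtain ⟨w', h1', h2'⟩ := h'
  exact ⟨w * w', by rw [map_mul, h1, h1'], (FreeGroup.norm_mul_le w w').trans (by omega)⟩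

theorem Len.inv {m : ℕ} {x : X} (h : T.Len m x) : T.Len m x⁻¹ := by
  obtain ⟨w, h1, h2⟩ := h
  exact ⟨w⁻¹, by rw [map_inv, h1], by rwa [FreeGroup.norm_inv_eq]⟩

theorem Len.zero {x : X} (h : T.Len 0 x) : x = 1 := by
  obtain ⟨w, h1, h2⟩ := h
  have : w = 1 := FreeGroup.norm_eq_zero.1 (Nat.le_zero.1 h2)
  rw [← h1, this, map_one]

theorem exists_Len (x : X) : ∃ m, T.Len m x := by
  obtain ⟨w, hw⟩ := T.μ_surj x
  exact ⟨w.norm, w, hw, le_rfl⟩

/-- `y = (∏ cj lᵢ) θ(w)` with short `lᵢ`, `w` -/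
def Small (m : ℕ) (y : YG X) : Prop :=
  ∃ (ls : List X) (w : X), y = (ls.map cj).prod * inl w ∧ (∀ l ∈ ls, T.Len m l) ∧ T.Len m w

theorem Small.one : T.Small 0 1 := ⟨[], 1, by simp, by simp, Len.one T⟩

theorem Small.mono {m m' : ℕ} {y : YG X} (h : T.Small m y) (hm : m ≤ m') : T.Small m' y := by
  obtain ⟨ls, w, h1, h2, h3⟩ := h
  exact ⟨ls, w, h1, fun l hl => (h2 l hl).mono T hm, h3.mono T hm⟩

theorem cj_inv (l : X) : (cj l)⁻¹ = cj l := inv_eq_of_mul_eq_one_left (cj_mul_self l)

/-- `θ(w) (∏ cj lᵢ) = (∏ cj (lᵢ w⁻¹)) θ(w)` -/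
theorem inl_mul_prod_cj (w : X) (ls : List X) :
    (inl w : YG X) * (ls.map cj).prod = ((ls.map (· * w⁻¹)).map cj).prod * inl w := by
  induction ls with
  | nil => simp
  | cons l ls ih =>
    simp only [List.map_cons, List.prod_cons]
    rw [← mul_assoc, inl_mul_cj, mul_assoc, ih, mul_assoc]

theorem prod_cj_inv (ls : List X) : ((ls.map cj).prod)⁻¹ = ((ls.reverse).map cj).prod := by
  induction ls with
  | nil => simp
  | cons l ls ih =>
    simp only [List.map_cons, List.prod_cons, List.reverse_cons, List.map_append, List.prod_append,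
      List.map_nil, List.prod_nil, mul_one, mul_inv_rev, ih, cj_inv]

/-- `(∏ cj lᵢ) w (∏ cj l'ᵢ) w' = (∏ cj lᵢ)(∏ cj (l'ᵢ w⁻¹)) (w w')`  (`inl_mul_cj`, induction on the second list). -/
theorem Small.mul {m m' : ℕ} {y y' : YG X} (h : T.Small m y) (h' : T.Small m' y') :
    T.Small (m + m') (y * y') := by
  obtain ⟨ls, w, h1, h2, h3⟩ := h
  obtain ⟨ls', w', h1', h2', h3'⟩ := h'
  refine ⟨ls ++ ls'.map (· * w⁻¹), w * w', ?_, ?_, h3.mul T h3'⟩
  · rw [h1, h1', List.map_append, List.prod_append, map_mul]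
    calc (ls.map cj).prod * inl w * ((ls'.map cj).prod * inl w')
        = (ls.map cj).prod * (inl w * (ls'.map cj).prod) * inl w' := by group
      _ = (ls.map cj).prod * (((ls'.map (· * w⁻¹)).map cj).prod * inl w) * inl w' := by
          rw [inl_mul_prod_cj]
      _ = (ls.map cj).prod * ((ls'.map (· * w⁻¹)).map cj).prod * (inl w * inl w') := by group
  · intro l hl
    rcases List.mem_append.1 hl with hl | hl
    · exact (h2 l hl).mono T (Nat.le_add_right _ _)
    · obtain ⟨l', hl', rfl⟩ := List.mem_map.1 hl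
      have := (h2' l' hl').mul T (h3.inv T)
      rwa [Nat.add_comm] at this

/-- `((∏ cj lᵢ) w)⁻¹ = (∏ cj (lᵢ w), reversed) w⁻¹`  (`(cj l)⁻¹ = cj l`, `inl_mul_cj`). -/
theorem Small.inv {m : ℕ} {y : YG X} (h : T.Small m y) : T.Small (2 * m) y⁻¹ := by
  obtain ⟨ls, w, h1, h2, h3⟩ := h
  refine ⟨ls.reverse.map (· * w⁻¹⁻¹), w⁻¹, ?_, ?_, (h3.inv T).mono T (by omega)⟩
  · rw [h1, mul_inv_rev, prod_cj_inv, ← map_inv, inl_mul_prod_cj]
  · intro l hl
    obtain ⟨l', hl', rfl⟩ := List.mem_map.1 hl
    have := (h2 l' (List.mem_reverse.1 hl')).mul T ((h3.inv T).inv T)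
    rwa [← two_mul] at this

theorem small_labY_incJ (mk : FX n →* X) (w : FX n) : labY mk (incJ n w) = inl (mk w) := by
  have h : (labY mk).comp (incJ n) = (inl : X →* YG X).comp mk := by
    apply FreeGroup.ext_hom
    intro z
    simp [labY, incJ]
  exact DFunLike.congr_fun h w

theorem small_labY_Jl (mk : FX n →* X) : labY mk (Jl n) = jY X := by
  simp [labY, Jl]

/-- transport of `SmallF` along the label map (`labY (incJ w) = inl (μ w)`, `labY Jl = jY`). -/
theorem small_of_smallF {m : ℕ} {e : FJ n} (h : SmallF m e) : T.Small m (labY T.μ e) := by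
  obtain ⟨ls, w, h1, h2, h3⟩ := h
  refine ⟨ls.map fun l => T.μ l.1, T.μ w, ?_, ?_, ⟨w, rfl, h3⟩⟩
  · rw [h1, map_mul, map_list_prod, small_labY_incJ, List.map_map, List.map_map]
    congr 2
    refine List.map_congr_left fun l _ => ?_
    rcases l with ⟨l, b⟩
    cases b <;>
      simp only [Function.comp_apply, map_mul, map_inv, small_labY_incJ, small_labY_Jl, cj, jY_inv, if_true,
        Bool.false_eq_true, if_false]
  · intro l hl
    obtain ⟨l', hl', rfl⟩ := List.mem_map.1 hl
    exact ⟨l'.1, rfl, h2 l' hl'⟩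

/-- cancel equal neighbours in a list of markers (`cj_mul_self`) -/
theorem markers_reduce (ls : List X) :
    ∃ ls' : List X, ls'.IsChain (· ≠ ·) ∧ (∀ l ∈ ls', l ∈ ls) ∧
      (ls'.map cj).prod = (ls.map cj).prod := by
  induction ls with
  | nil => exact ⟨[], List.isChain_nil, by simp, rfl⟩
  | cons l ls ih =>
    obtain ⟨ls', h1, h2, h3⟩ := ih
    cases ls' with
    | nil =>
      refine ⟨[l], List.isChain_singleton _, by simp, ?_⟩
      simp only [List.map_cons, List.prod_cons, ← h3]
    | cons l' t =>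
      by_cases hll : l = l'
      · subst hll
        refine ⟨t, h1.of_cons, fun x hx => List.mem_cons_of_mem _ (h2 x (List.mem_cons_of_mem _ hx)), ?_⟩
        simp only [List.map_cons, List.prod_cons] at h3 ⊢
        rw [← h3, ← mul_assoc, cj_mul_self, one_mul]
      · refine ⟨l :: l' :: t, List.isChain_cons_cons.2 ⟨hll, h1⟩, ?_, ?_⟩
        · intro x hx
          rcases List.mem_cons.1 hx with rfl | hx
          · exact List.mem_cons_self
          · exact List.mem_cons_of_mem _ (h2 x hx)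
        · rw [List.map_cons, List.prod_cons, h3, List.map_cons, List.prod_cons]

/-- reduced non-empty list of markers `m₁ … m_k`:  `(∏ cj mᵢ) θ(w) = θ(m₁)⁻¹ · [j, m₁m₂⁻¹, j, …, j, m_k w]`; the list starts with `j`,
alternates, its `θ`-syllables are `≠ 1` (the last one is omitted if `m_k w = 1`) and are products of two elements of
`ms ∪ ms⁻¹ ∪ {w}`.  Induction on `ms`. -/
theorem nf_reduced (m : ℕ) (m₁ : X) (ms : List X) (w : X) (hc : (m₁ :: ms).IsChain (· ≠ ·))
    (hl : ∀ l ∈ m₁ :: ms, T.Len m l) (hw : T.Len m w) :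
    ∃ zs : List (Option X), AltOK (none :: zs) ∧ (∀ u, some u ∈ zs → T.Len (2 * m) u) ∧
      ((m₁ :: ms).map cj).prod * inl w = (inl m₁)⁻¹ * yprodX (none :: zs) := by
  induction ms generalizing m₁ with
  | nil =>
    have hlen : T.Len (2 * m) (m₁ * w) := by
      have := (hl m₁ List.mem_cons_self).mul T hw
      rwa [← two_mul] at this
    by_cases h1 : m₁ * w = 1
    · refine ⟨[], ⟨List.isChain_singleton _, by simp⟩, by simp, ?_⟩
      simp only [List.map_cons, List.map_nil, List.prod_cons, List.prod_nil, mul_one, yprodX_cons,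
        yprodX_nil, yItemX, cj]
      rw [mul_assoc, ← map_mul, h1, map_one, mul_one]
    · refine ⟨[some (m₁ * w)], ⟨List.isChain_cons_cons.2 ⟨by simp, List.isChain_singleton _⟩, ?_⟩,
        ?_, ?_⟩
      · intro u hu
        simp only [List.mem_cons, reduceCtorEq, Option.some.injEq, List.not_mem_nil, or_false,
          false_or] at hu
        rw [hu]; exact h1
      · intro u hu
        simp only [List.mem_cons, Option.some.injEq, List.not_mem_nil, or_false] at hu
        rw [hu]; exact hlen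
      · simp only [List.map_cons, List.map_nil, List.prod_cons, List.prod_nil, mul_one, yprodX_cons,
          yprodX_nil, yItemX, cj, map_mul]
        group
  | cons m₂ ms ih =>
    have hc' := List.isChain_cons_cons.1 hc
    obtain ⟨zs, h1, h2, h3⟩ := ih m₂ hc'.2 (fun l hl' => hl l (List.mem_cons_of_mem _ hl'))
    have hlen : T.Len (2 * m) (m₁ * m₂⁻¹) := by
      have := (hl m₁ List.mem_cons_self).mul T
        ((hl m₂ (List.mem_cons_of_mem _ List.mem_cons_self)).inv T)
      rwa [← two_mul] at this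
    have hne : m₁ * m₂⁻¹ ≠ 1 := fun h => hc'.1 (mul_inv_eq_one.1 h)
    refine ⟨some (m₁ * m₂⁻¹) :: none :: zs,
      ⟨List.isChain_cons_cons.2 ⟨by simp, List.isChain_cons_cons.2 ⟨by simp, h1.1⟩⟩, ?_⟩, ?_, ?_⟩
    · intro u hu
      rcases List.mem_cons.1 hu with hu | hu
      · exact absurd hu (by simp)
      · rcases List.mem_cons.1 hu with hu | hu
        · rw [Option.some.inj hu]; exact hne
        · exact h1.2 u hu
    · intro u hu
      rcases List.mem_cons.1 hu with hu | hu
      · rw [Option.some.inj hu]; exact hlen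
      · rcases List.mem_cons.1 hu with hu | hu
        · exact absurd hu (by simp)
        · exact h2 u hu
    · rw [List.map_cons, List.prod_cons, mul_assoc, h3]
      simp only [yprodX_cons, yItemX, cj, map_mul, map_inv]
      group

/-- **Normal form of a small element**: alternating list, `θ`-syllables `≠ 1` of length `≤ 2m`.
(`markers_reduce`; empty list of markers: `[w]` or `[]`; otherwise `nf_reduced` and put `m₁⁻¹` in front if `m₁ ≠ 1`.) -/
theorem small_nf {m : ℕ} {y : YG X} (h : T.Small m y) :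
    ∃ zs : List (Option X), AltOK zs ∧ (∀ u, some u ∈ zs → T.Len (2 * m) u) ∧ yprodX zs = y := by
  obtain ⟨ls, w, h1, h2, h3⟩ := h
  obtain ⟨ls', c1, c2, c3⟩ := markers_reduce ls
  cases ls' with
  | nil =>
    have hy : y = inl w := by
      rw [h1, ← c3]; simp
    by_cases hw : w = 1
    · refine ⟨[], ⟨List.isChain_nil, by simp⟩, by simp, ?_⟩
      rw [hy, hw, map_one, yprodX_nil]
    · refine ⟨[some w], ⟨List.isChain_singleton _, ?_⟩, ?_, ?_⟩
      · intro u hu
        simp only [List.mem_cons, Option.some.injEq, List.not_mem_nil, or_false] at hu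
        rw [hu]; exact hw
      · intro u hu
        simp only [List.mem_cons, Option.some.injEq, List.not_mem_nil, or_false] at hu
        rw [hu]; exact h3.mono T (by omega)
      · rw [hy, yprodX_cons, yprodX_nil, mul_one]; rfl
  | cons m₁ ms =>
    obtain ⟨zs, z1, z2, z3⟩ := nf_reduced T m m₁ ms w c1 (fun l hl => h2 l (c2 l hl)) h3
    have hy : y = (inl m₁)⁻¹ * yprodX (none :: zs) := by
      rw [h1, ← c3, z3]
    by_cases hm : m₁ = 1
    · refine ⟨none :: zs, z1, ?_, ?_⟩
      · intro u hu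
        rcases List.mem_cons.1 hu with hu | hu
        · exact absurd hu (by simp)
        · exact z2 u hu
      · rw [hy, hm, map_one, inv_one, one_mul]
    · refine ⟨some m₁⁻¹ :: none :: zs, ⟨List.isChain_cons_cons.2 ⟨by simp, z1.1⟩, ?_⟩, ?_, ?_⟩
      · intro u hu
        rcases List.mem_cons.1 hu with hu | hu
        · rw [Option.some.inj hu]; exact inv_ne_one.2 hm
        · exact z1.2 u hu
      · intro u hu
        rcases List.mem_cons.1 hu with hu | hu
        · rw [Option.some.inj hu]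
          exact ((h2 m₁ (c2 m₁ List.mem_cons_self)).inv T).mono T (by omega)
        · rcases List.mem_cons.1 hu with hu | hu
          · exact absurd hu (by simp)
          · exact z2 u hu
      · rw [hy, yprodX_cons (some _)]
        simp only [yItemX, map_inv]

end Tower

end Claimed.Agent.R152.CT
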