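import Claimed.Agent.R152.CT.SemCatA
import Claimed.Agent.R152.CT.SemCatB
import Claimed.Agent.R152.CT.SemCatC

/-!
# Row 152, module CT, file 10: SOUNDNESS of the grammar relative to an admissible pair `(K', A')`.
-/

namespace Claimed.Agent.R152.CT

open Monoid.Coprod HNNExtension

universe u

variable {H : Type u} [Group H] {n : ℕ} {X : Type} [Group X]

namespace Tower

section
variable {B : HwBase H n} (T : Tower B X) (K' : Subgroup H) (A' : Subgroup (YG X))

theorem sem_cat (h : T.Adm K' A') : ∀ r ∈ catT, T.CatOK K' A' r.1 r.2.1 r.2.2 := by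
  unfold catT
  simp only [List.forall_mem_cons, List.not_mem_nil, false_imp_iff, implies_true, and_true]
  exact ⟨T.cat_wp_eps_eps K' A',
    T.cat_wp_sp_wp K' A',
    T.cat_yall_eps_eps K' A',
    T.cat_yall_jj_yall K' A',
    T.cat_yall_tall_yall K' A',
    T.cat_yj_jj_eps K' A',
    T.cat_yj_jj_yt K' A',
    T.cat_yt_tn1_eps K' A',
    T.cat_yt_tn1_yj K' A',
    T.cat_y1_yj_eps K' A',
    T.cat_y1_yt_eps K' A',
    T.cat_yrep_jj_eps K' A' h,
    T.cat_yrep_tnl_eps K' A',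
    T.cat_gr0_rp_wp K' A',
    T.cat_gr_gr0_rn K' A',
    T.cat_ball_wh_yall K' A',
    T.cat_bn1_e1_yall K' A',
    T.cat_bn1_wh_y1 K' A',
    T.cat_bnA_ep_yall K' A',
    T.cat_bnA_wh_y1 K' A',
    T.cat_bnB_ep_yall K' A',
    T.cat_bnB_y1_gr K' A',
    T.cat_bnS_ek_yall K' A',
    T.cat_bnS_yrep_wh K' A',
    T.cat_bnSA_ekp_yall K' A',
    T.cat_bnSA_yrep_wh K' A',
    T.cat_bnSB_ekp_yall K' A',
    T.cat_bnSB_yrep_gr K' A' h,
    T.cat_tp_ball_eps K' A',
    T.cat_tp_ball_rpos K' A',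
    T.cat_tp_bnA_rneg K' A',
    T.cat_tn_ball_eps K' A',
    T.cat_tn_ball_rneg K' A',
    T.cat_tn_bnB_rpos K' A',
    T.cat_rpos_rp_tp K' A',
    T.cat_rneg_rn_tn K' A',
    T.cat_n1_bn1_eps K' A',
    T.cat_n1_ball_rpos K' A',
    T.cat_n1_ball_rneg K' A',
    T.cat_nl_bnS_eps K' A' h,
    T.cat_nl_bnSB_rpos K' A' h,
    T.cat_nl_bnSA_rneg K' A' h⟩

theorem sem_mor (h : T.Adm K' A') : ∀ r ∈ morT, T.MorOK K' A' r.1 r.2 := by
  unfold morT
  simp only [List.forall_mem_cons, List.not_mem_nil, false_imp_iff, implies_true, and_true]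
  refine ⟨?_, ?_, ?_⟩
  · intro x _
    exact ⟨x, rfl⟩
  · intro x hx
    exact ⟨x, hx, rfl⟩
  · intro x hx
    exact ⟨x, fun e => hx (h.θ x e), rfl⟩

end

variable (hw : Hardware H n) (T : Tower hw.toHwBase X) (K' : Subgroup H) (A' : Subgroup (YG X))

/-- the base languages are sound -/
theorem sem_base (h : T.Adm K' A') : ∀ (i : Srt) (w : WX n), hw.base i w → T.val w ∈ T.Sem K' A' i := by
  intro i w hb
  cases i
  case all => trivial
  case eps =>
    obtain rfl : w = [] := hb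
    exact T.val_nil
  case wh =>
    obtain ⟨v, rfl⟩ := hb
    exact ⟨_, T.val_incW v⟩
  case e1 =>
    obtain ⟨v, hv, rfl⟩ := hb
    exact ⟨_, hw.Ev1_sound v hv, T.val_incW v⟩
  case ep =>
    obtain ⟨v, hv, rfl⟩ := hb
    exact ⟨_, hw.EvP_sound v hv, T.val_incW v⟩
  case ek =>
    obtain ⟨v, hv, rfl⟩ := hb
    exact ⟨_, fun e => hw.EvK_sound v hv (h.le e), T.val_incW v⟩
  case ekp =>
    obtain ⟨v, hv, rfl⟩ := hb
    exact ⟨_, fun k hk p hp => hw.EvKP_sound v hv k (h.le hk) p hp, T.val_incW v⟩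
  case sp =>
    obtain ⟨s, hs, rfl | rfl⟩ := hb
    · exact ⟨⟨_, hw.mem_P_of_mem_SP hs⟩, T.val_incW s⟩
    · refine ⟨⟨_, hw.mem_P_of_mem_SP hs⟩⁻¹, ?_⟩
      rw [T.val_incW, ← FreeGroup.inv_mk, map_inv]
      rfl
  case jj =>
    obtain rfl : w = hw.jW := hb
    exact T.val_jW
  case rp =>
    obtain rfl : w = rhoW n := hb
    exact T.val_rhoW
  case rn =>
    obtain rfl : w = rhoW' n := hb
    exact T.val_rhoW'
  all_goals exact hb.elim

/-- **Soundness of the grammar.** -/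
theorem sound (h : T.Adm K' A') {i : Srt} {w : WX n} (hd : hw.D i w) : T.val w ∈ T.Sem K' A' i :=
  Der.sound T.val T.θ (T.Sem K' A') T.val_append T.val_flatMap (T.sem_base hw K' A' h)
    (T.sem_cat K' A' h) (T.sem_mor K' A' h) hd

end Tower

end Claimed.Agent.R152.CT
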