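import Claimed.Agent.R152.CT.Defs

/-!
# Row 152, module CT, file 2: the functor `Φ` and the abstract notion of a TOWER `X ≅ Φ(X)`.

`Y = X ∗ C₂`, base `H × Y`, one stable letter `ρ` with `ρ (p,1) ρ⁻¹ = (p, π p)` (`p ∈ P`).
All later files work with an abstract `T : Tower B X`; file `Iso.lean` constructs one for `X = B.XG`.
-/

namespace Claimed.Agent.R152.CT

open Monoid.Coprod

universe u

/-- the group of order two -/
abbrev C2 := ℤˣ

/-- `Y = X ∗ C₂` -/
abbrev YG (X : Type) [Group X] := Monoid.Coprod X C2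

/-- the involution `j ∈ Y` -/
def jY (X : Type) [Group X] : YG X := Monoid.Coprod.inr (-1)

theorem jY_mul_self (X : Type) [Group X] : jY X * jY X = 1 := by
  unfold jY
  rw [← map_mul]
  simp

theorem jY_inv (X : Type) [Group X] : (jY X)⁻¹ = jY X :=
  inv_eq_of_mul_eq_one_left (jY_mul_self X)

open Classical in
/-- a homomorphism from the group of order two given by an involution -/
noncomputable def invHom {G : Type*} [Group G] (σ : G) (hσ : σ * σ = 1) : C2 →* G where
  toFun u := if u = 1 then 1 else σ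
  map_one' := by simp
  map_mul' a b := by
    rcases Int.units_eq_one_or a with rfl | rfl <;> rcases Int.units_eq_one_or b with rfl | rfl <;>
      simp [hσ]

theorem invHom_neg_one {G : Type*} [Group G] (σ : G) (hσ : σ * σ = 1) : invHom σ hσ (-1) = σ := by
  simp [invHom]

variable {H : Type u} [Group H] {n : ℕ} (B : HwBase H n) {X : Type} [Group X] (mk : FX n →* X)

/-- labels evaluated in `Y` -/
def labY : FJ n →* YG X :=
  FreeGroup.lift fun o => match o with
    | none => jY X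
    | some z => inl (mk (FreeGroup.of z))

/-- `π : P → Y` -/
def piY : B.P →* YG X := (labY mk).comp B.π₀

/-- `p ↦ (p,1)` -/
def iA : B.P →* H × YG X := MonoidHom.prod B.P.subtype 1

/-- `p ↦ (p, π p)` -/
def iB : B.P →* H × YG X := MonoidHom.prod B.P.subtype (piY B mk)

theorem iA_injective : Function.Injective (iA B (X := X)) := by
  intro a b h
  have := congrArg Prod.fst h
  exact Subtype.ext this

theorem iB_injective : Function.Injective (iB B mk) := by
  intro a b h
  have := congrArg Prod.fst h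
  exact Subtype.ext this

/-- `P × 1` -/
abbrev AM : Subgroup (H × YG X) := (iA B (X := X)).range

/-- the graph of `π` -/
abbrev BM : Subgroup (H × YG X) := (iB B mk).range

/-- `(p,1) ↦ (p, π p)` -/
noncomputable def phiM : AM B (X := X) ≃* BM B mk :=
  (MonoidHom.ofInjective (iA_injective B)).symm.trans (MonoidHom.ofInjective (iB_injective B mk))

/-- `Φ(X)` -/
abbrev Phi := HNNExtension (H × YG X) (AM B (X := X)) (BM B mk) (phiM B mk)

/-- A TOWER: a marked group `X` with `X ≅ Φ(X)` compatible with the markings. -/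
structure Tower (X : Type) [Group X] where
  /-- the marking -/
  μ : FX n →* X
  μ_surj : Function.Surjective μ
  Ψ : X ≃* Phi B μ
  Ψ_h : ∀ w : FH n, Ψ (μ (incH n w)) = HNNExtension.of (B.φ w, 1)
  Ψ_ρ : Ψ (μ (rhoF n)) = HNNExtension.t
  θ : X →* X
  θ_μ : ∀ w, θ (μ w) = μ (B.thF w)
  Ψ_θ : ∀ x, Ψ (θ x) = HNNExtension.of (1, inl x)
  Ψ_j : Ψ (μ B.jF) = HNNExtension.of (1, jY X)

theorem mem_AM_iff (g : H × YG X) : g ∈ AM B (X := X) ↔ g.1 ∈ B.P ∧ g.2 = 1 := by
  constructor
  · rintro ⟨p, rfl⟩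
    exact ⟨p.2, rfl⟩
  · rcases g with ⟨h, y⟩
    rintro ⟨hp, rfl⟩
    exact ⟨⟨h, hp⟩, rfl⟩

theorem mem_BM_iff (g : H × YG X) :
    g ∈ BM B mk ↔ ∃ hp : g.1 ∈ B.P, g.2 = piY B mk ⟨g.1, hp⟩ := by
  constructor
  · rintro ⟨p, rfl⟩
    exact ⟨p.2, rfl⟩
  · rcases g with ⟨h, y⟩
    rintro ⟨hp, hy⟩
    exact ⟨⟨h, hp⟩, Prod.ext rfl hy.symm⟩

theorem phiM_apply (p : B.P) (hp : ((p : H), (1 : YG X)) ∈ AM B (X := X)) :
    ((phiM B mk ⟨((p : H), (1 : YG X)), hp⟩ : BM B mk) : H × YG X) = ((p : H), piY B mk p) := by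
  have h1 : (⟨((p : H), (1 : YG X)), hp⟩ : AM B (X := X)) =
      MonoidHom.ofInjective (iA_injective B) p := by
    apply Subtype.ext; rfl
  unfold phiM
  rw [MulEquiv.trans_apply, h1, MulEquiv.symm_apply_apply]
  rfl

theorem phiM_symm_apply (p : B.P) (hp : ((p : H), piY B mk p) ∈ BM B mk) :
    (((phiM B mk).symm ⟨((p : H), piY B mk p), hp⟩ : AM B (X := X)) : H × YG X)
      = ((p : H), (1 : YG X)) := by
  have h1 : (⟨((p : H), piY B mk p), hp⟩ : BM B mk) =
      phiM B mk ⟨((p : H), (1 : YG X)), (mem_AM_iff B _).2 ⟨p.2, rfl⟩⟩ := by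
    apply Subtype.ext
    rw [phiM_apply]
  rw [h1, MulEquiv.symm_apply_apply]

end Claimed.Agent.R152.CT
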