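import Claimed.Agent.R152.CT.Tower

/-!
# Row 152, module CT, file 3: API of a tower (everything transported from `Φ(X)` to `X`).
All proofs are short transports along `T.Ψ` of facts of Mathlib's `HNNExtension`
(`of_injective`, `t_mul_of`, `ReducedWord.map_fst_eq_and_of_prod_eq`, `ReducedWord.toList_eq_nil_of_mem_of_range`).
-/

namespace Claimed.Agent.R152.CT

open Monoid.Coprod

universe u

variable {H : Type u} [Group H] {n : ℕ} {B : HwBase H n} {X : Type} [Group X]

namespace Tower

variable (T : Tower B X)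

/-- the base group inside `X` -/
noncomputable def bas : H × YG X →* X := T.Ψ.symm.toMonoidHom.comp HNNExtension.of

/-- the stable letter -/
def rho : X := T.μ (rhoF n)

/-- the involution -/
def j : X := T.μ B.jF

/-- reduced words of `Φ(X)` -/
abbrev RW := HNNExtension.NormalWord.ReducedWord (H × YG X) (AM B (X := X)) (BM B T.μ)

/-- product of a list of syllables `ρ^u g` -/
noncomputable def evalL (l : List (ℤˣ × (H × YG X))) : X :=
  (l.map fun p => T.rho ^ (p.1 : ℤ) * T.bas p.2).prod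

/-- value of a reduced word in `X` -/
noncomputable def eval (w : T.RW) : X := T.bas w.head * T.evalL w.toList

theorem Ψ_bas (g : H × YG X) : T.Ψ (T.bas g) = HNNExtension.of g := by
  simp [bas]

theorem Ψ_rho : T.Ψ T.rho = HNNExtension.t := T.Ψ_ρ

theorem bas_injective : Function.Injective T.bas := by
  intro a b h
  have := congrArg T.Ψ h
  rw [Ψ_bas, Ψ_bas] at this
  exact HNNExtension.of_injective _ this

theorem bas_h (w : FH n) : T.bas (B.φ w, 1) = T.μ (incH n w) := by
  apply T.Ψ.injective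
  rw [Ψ_bas, T.Ψ_h]

theorem bas_inl (x : X) : T.bas (1, inl x) = T.θ x := by
  apply T.Ψ.injective
  rw [Ψ_bas, T.Ψ_θ]

theorem bas_jY : T.bas (1, jY X) = T.j := by
  apply T.Ψ.injective
  rw [Ψ_bas, j, T.Ψ_j]

theorem bas_split (h : H) (y : YG X) : T.bas (h, y) = T.bas (h, 1) * T.bas (1, y) := by
  rw [← map_mul]; simp

theorem bas_comm (h : H) (y : YG X) : T.bas (h, 1) * T.bas (1, y) = T.bas (1, y) * T.bas (h, 1) := by
  rw [← map_mul, ← map_mul]; simp

theorem j_mul_self : T.j * T.j = 1 := by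
  rw [← bas_jY, ← map_mul]
  have : ((1 : H), jY X) * ((1 : H), jY X) = 1 := by
    ext <;> simp [jY_mul_self]
  rw [this, map_one]

theorem j_inv : T.j⁻¹ = T.j := inv_eq_of_mul_eq_one_left T.j_mul_self

theorem θ_injective : Function.Injective T.θ := by
  intro a b h
  rw [← bas_inl, ← bas_inl] at h
  have := T.bas_injective h
  exact Monoid.Coprod.inl_injective (congrArg Prod.snd this)

/-- the defining relation `ρ (p,1) ρ⁻¹ = (p, π p)` -/
theorem rho_conj (p : B.P) :
    T.rho * T.bas ((p : H), 1) * T.rho⁻¹ = T.bas ((p : H), piY B T.μ p) := by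
  apply T.Ψ.injective
  rw [map_mul, map_mul, map_inv, Ψ_rho, Ψ_bas, Ψ_bas]
  have hp : ((p : H), (1 : YG X)) ∈ AM B (X := X) := (mem_AM_iff B _).2 ⟨p.2, rfl⟩
  have h := HNNExtension.equiv_eq_conj (φ := phiM B T.μ) ⟨((p : H), (1 : YG X)), hp⟩
  rw [phiM_apply] at h
  exact h.symm

/-- `bas (1, labY e) = μ (labF e)` (check on generators: `bas_jY`, `bas_inl`, `θ_μ`). -/
theorem bas_labY (e : FJ n) : T.bas (1, labY T.μ e) = T.μ (B.labF e) := by
  have h : (T.bas.comp (MonoidHom.inr H (YG X))).comp (labY T.μ) = T.μ.comp B.labF := by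
    apply FreeGroup.ext_hom
    intro o
    rcases o with _ | z
    · show T.bas (1, labY T.μ (FreeGroup.of none)) = T.μ (B.labF (FreeGroup.of none))
      unfold labY HwBase.labF
      rw [FreeGroup.lift_apply_of, FreeGroup.lift_apply_of]
      exact T.bas_jY
    · show T.bas (1, labY T.μ (FreeGroup.of (some z))) = T.μ (B.labF (FreeGroup.of (some z)))
      unfold labY HwBase.labF
      rw [FreeGroup.lift_apply_of, FreeGroup.lift_apply_of]
      show T.bas (1, inl (T.μ (FreeGroup.of z))) = T.μ (B.thW z)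
      rw [bas_inl, T.θ_μ]
      unfold HwBase.thF
      rw [FreeGroup.lift_apply_of]
  exact DFunLike.congr_fun h e

theorem Ψ_eval (w : T.RW) : T.Ψ (T.eval w) = w.prod (phiM B T.μ) := by
  unfold eval evalL HNNExtension.NormalWord.ReducedWord.prod
  rw [map_mul, Ψ_bas, map_list_prod, List.map_map]
  congr 2
  apply List.map_congr_left
  intro p _
  show T.Ψ (T.rho ^ (p.1 : ℤ) * T.bas p.2) = _
  rw [map_mul, map_zpow, Ψ_rho, Ψ_bas]

/-- uniqueness of reduced words (Mathlib `map_fst_eq_and_of_prod_eq`) -/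
theorem eval_unique {w₁ w₂ : T.RW} (h : T.eval w₁ = T.eval w₂) :
    w₁.toList.map Prod.fst = w₂.toList.map Prod.fst ∧
      ∀ u ∈ w₁.toList.head?.map Prod.fst,
        w₁.head⁻¹ * w₂.head ∈ HNNExtension.toSubgroup (AM B (X := X)) (BM B T.μ) (-u) := by
  apply HNNExtension.ReducedWord.map_fst_eq_and_of_prod_eq (phiM B T.μ)
  rw [← Ψ_eval, ← Ψ_eval, h]

/-- Britton's lemma -/
theorem britton (w : T.RW) (h : T.eval w ∈ T.bas.range) : w.toList = [] := by
  obtain ⟨g, hg⟩ := h
  apply HNNExtension.ReducedWord.toList_eq_nil_of_mem_of_range (phiM B T.μ)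
  exact ⟨g, by rw [← Ψ_bas, hg, Ψ_eval]⟩

/-- `μ` of a generator or its inverse -/
theorem μ_some (i : Fin n) : T.μ (FreeGroup.of (some i)) = T.bas (B.φ (FreeGroup.of i), 1) := by
  rw [bas_h]; simp [incH]

theorem μ_none : T.μ (FreeGroup.of none) = T.rho := rfl

/-- value of a word in `X` -/
def val (w : WX n) : X := T.μ (FreeGroup.mk w)

theorem val_nil : T.val [] = 1 := by
  rw [val, ← FreeGroup.one_eq_mk, map_one]

theorem val_append (u v : WX n) : T.val (u ++ v) = T.val u * T.val v := by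
  rw [val, ← FreeGroup.mul_mk, map_mul]; rfl

theorem val_flatMap (w : WX n) : T.val (w.flatMap B.thL) = T.θ (T.val w) := by
  rw [val, B.mk_flatMap_thL, ← T.θ_μ]; rfl

theorem val_incW (v : WH n) : T.val (incW v) = T.bas (B.φ (FreeGroup.mk v), 1) := by
  rw [val, mk_incW, bas_h]

theorem val_jW : T.val B.jW = T.j := rfl

theorem val_rhoW : T.val (rhoW n) = T.rho := rfl

theorem val_rhoW' : T.val (rhoW' n) = T.rho⁻¹ := by
  rw [val, mk_rhoW', map_inv]; rfl

theorem val_surj (x : X) : ∃ w : WX n, T.val w = x := by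
  obtain ⟨f, hf⟩ := T.μ_surj x
  exact ⟨f.toWord, by rw [val, FreeGroup.mk_toWord, hf]⟩

end Tower

end Claimed.Agent.R152.CT
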